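import Crest.Agent.N218.D8.Defs

/-!
# Row 218, block D8 (helper25): conjugation is `-1` on `K̃(S¹⁰)`
-/

set_option autoImplicit false

open Matrix
open scoped unitInterval

noncomputable section

namespace Crest.Agent.N218.D8.Cn

open R204 R204.Bt837 R204.K357 R204.LineT357

section loops
variable {A : Type} [NormedCommRing A] [NormedAlgebra ℂ A]

/-- a continuous ring endomorphism acts on free loops -/
def cL (τ : A →+* A) (h : Continuous τ) : LA A →+* LA A where
  toFun a := LA.mk ⟨fun t => τ (a.fn t), h.comp a.fn.continuous⟩ (congrArg τ a.fn01)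
  map_one' := LA.ext fun _ => map_one τ
  map_mul' _ _ := LA.ext fun _ => map_mul τ _ _
  map_zero' := LA.ext fun _ => map_zero τ
  map_add' _ _ := LA.ext fun _ => map_add τ _ _

theorem cL_cont (τ : A →+* A) (h : Continuous τ) : Continuous (cL τ h) := by
  have k : Continuous fun a : LA A => (⟨τ, h⟩ : C(A, A)).comp a.fn :=
    (ContinuousMap.continuous_postcomp (⟨τ, h⟩ : C(A, A))).comp LA.continuous_fn
  exact Continuous.subtype_mk k _

variable {n k : Type} [Fintype n] [DecidableEq n] [Fintype k] [DecidableEq k]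

omit [DecidableEq k] in
theorem isCl_cL (τ : A →+* A) (h : Continuous τ) {e : Matrix k k (LA A)} {g : Matrix n n A}
    (H : IsCl e g) : IsCl (e.map (cL τ h)) (g.map τ) := by
  obtain ⟨a, b, ca, cb, hab, hba, h1⟩ := H
  refine ⟨fun s => (a s).map τ, fun s => (b s).map τ, ca.matrix_map h, cb.matrix_map h,
    fun s => ?_, fun s => ?_, ?_⟩
  · have : (e.map (cL τ h)).map (LA.ev s) = (e.map (LA.ev s)).map τ := rfl
    rw [this, ← hab, Matrix.map_mul]
  · rw [← Matrix.map_mul, hba]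
    exact Matrix.map_one _ (map_zero _) (map_one _)
  · change (a 1).map τ = (a 0).map τ * g.map τ
    rw [h1, Matrix.map_mul]

theorem map_dL_cL (τ : A →+* A) (h : Continuous τ) (g g' : (Matrix n n A)ˣ)
    (e : (g : Matrix n n A).map τ = g') : K0.map (cL τ h) (dL g) = dL g' := by
  have h1 : IsCl ((EL g).map (cL τ h)) (g' : Matrix n n A) := e ▸ isCl_cL τ h (isCl_EL g)
  have h2 := h1.cls
  rw [dL, map_sub, K0.map_cls _ (EL_idem g), h2, K0.cls_one, ← K0.mapRing_apply, map_natCast]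
  ring

end loops

/-- conjugation on loops -/
def c1 : LA ℂ →+* LA ℂ := cL (starRingEnd ℂ) Complex.continuous_conj
/-- conjugation on double loops -/
def c2 : LA (LA ℂ) →+* LA (LA ℂ) := cL c1 (cL_cont _ _)

theorem c2_bT : K0.map c2 (bT ℂ) = -bT ℂ := by
  rw [bT, ← dL_inv]
  refine map_dL_cL _ _ _ _ ?_
  ext i j
  have e : c1 (zU ℂ : LA ℂ) = (zU ℂ).inv := LA.ext fun t => by
    change starRingEnd ℂ ((zU ℂ : LA ℂ).fn t) = _
    rw [zU_fn, zU_inv_fn, Circle.coe_inv_eq_conj]
    rfl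
  change c1 ((zU ℂ : LA ℂ) * 1) = (zU ℂ).inv * 1
  rw [mul_one, mul_one, e]

/-- conjugation on the torus algebra -/
def cT (N : Type) [DecidableEq N] : TAt N →+* TAt N where
  toFun f := (⟨star (Subtype.val f : C(N → I, ℂ)),
    fun x i => congrArg star ((Subtype.property f : Subtype.val f ∈ TA N) x i)⟩ : TA N)
  map_one' := TA_ext fun _ => star_one ℂ
  map_mul' _ _ := TA_ext fun _ => map_mul (starRingEnd ℂ) _ _
  map_zero' := TA_ext fun _ => star_zero ℂ
  map_add' _ _ := TA_ext fun _ => map_add (starRingEnd ℂ) _ _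

/-- conjugation in `K`-theory of the torus -/
def kT (N : Type) [DecidableEq N] : K0 (TAt N) →+* K0 (TAt N) := K0.mapRing (cT N)

theorem kT_pull {M N : Type} [DecidableEq M] [DecidableEq N] (e : M ↪ N) (x : K0 (TAt M)) :
    kT N (kpull e x) = kpull e (kT M x) := by
  rw [kT, kT, K0.mapRing_apply, K0.mapRing_apply, kpull_apply, kpull_apply, ← K0.map_comp,
    ← K0.map_comp]
  rfl

theorem kT_bTor : kT (Fin 2) bTor = -bTor := by
  rw [bTor, ← map_neg, ← c2_bT, kT, K0.mapRing_apply, ← K0.map_comp, ← K0.map_comp]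
  rfl

theorem kT_PB (m : ℕ) : kT (Fin m) (PB m) = (-1) ^ (m / 2) * PB m := by
  rw [PB, map_prod]
  have h : ∀ i ∈ Finset.range (m / 2), kT (Fin m) (Bm m i) = -1 * Bm m i := by
    intro i hi
    have hi' := Finset.mem_range.1 hi
    have h1 : 2 * i + 1 < m := by omega
    rw [Bm, dif_pos h1, kT_pull, kT_bTor, map_neg, neg_one_mul]
  rw [Finset.prod_congr rfl h, Finset.prod_mul_distrib, Finset.prod_const, Finset.card_range]

theorem kT_tor {N : Type} [DecidableEq N] (x : K0 (SPt N)) :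
    ktor N (K0.map (cj N) x) = kT N (ktor N x) := by
  rw [kT, ktor, K0.mapRing_apply, K0.mapRing_apply, K0.mapRing_apply, ← K0.map_comp,
    ← K0.map_comp]
  rfl

theorem kev_cj {N : Type} (x : K0 (SPt N)) :
    kev N (K0.map (cj N) x) = K0.map (starRingEnd ℂ) (kev N x) := by
  rw [kev_apply, kev_apply, ← K0.map_comp, ← K0.map_comp]
  rfl

theorem cj_bb (a : ℕ) : K0.map (cj _) (bb a) = (-1 : ℤ) ^ a • bb a := by
  have h2 : 2 * a / 2 = a := by omega
  have h1 : kev (Fin (2 * a)) (bb a) = 0 := (bb_kz a).1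
  apply ktor_ext
  · rw [map_zsmul, kev_cj, h1, map_zero, smul_zero]
  · rw [kT_tor, map_zsmul, bb_tor, kT_PB, h2, zsmul_eq_mul]
    push_cast
    rfl

theorem exists_rank {ι : Type} [Fintype ι] [DecidableEq ι] (e : Matrix ι ι ℂ) (he : e * e = e) :
    ∃ r : ℕ, K0.cls e = r := by
  have h := idem_reindex he (Fintype.equivFin ι)
  obtain ⟨r, hr⟩ := H472.exists_MvN_one _ h
  exact ⟨r, by
    rw [K0.cls_of_equiv he (Fintype.equivFin ι) (f := e.submatrix (Fintype.equivFin ι).symm
      (Fintype.equivFin ι).symm) (by intro i j; simp), K0.cls_eq h (by simp) hr, K0.cls_one_fin]⟩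

end Crest.Agent.N218.D8.Cn

namespace Crest.Agent.N218.D8

open R204 R204.Bt837 R204.K357 Cn

/-- **CONJ** -/
theorem conj : CONJ := by
  intro ι _ _ P hP hPP
  obtain ⟨r, hr⟩ := exists_rank (P.map (SPe (Fin (2 * 5)) : SPt _ →+* ℂ)) (idem_map _ hPP)
  have h0 : kev (Fin (2 * 5)) (K0.cls P - r) = 0 := by
    rw [map_sub, map_natCast, kev_apply, K0.map_cls _ hPP, hr, sub_self]
  obtain ⟨n, hn⟩ := (bb_kz 5).2.1 _ h0
  have h1 : K0.map (cj (Fin (2 * 5))) (K0.cls P - r) = K0.cls P - r := by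
    rw [map_sub, K0.map_cls _ hPP, hP, ← K0.mapRing_apply, map_natCast]
  rw [hn, map_zsmul, cj_bb, smul_smul] at h1
  have h2 : (n * (-1) ^ 5 - n) • bb 5 = 0 := by rw [sub_smul, h1, sub_self]
  have h3 := (bb_kz 5).2.2 _ h2
  have h4 : n = 0 := by omega
  rw [h4, zero_smul, sub_eq_zero, ← K0.cls_one_fin] at hn
  obtain ⟨k, x, y, hxy, hyx⟩ := (K0.cls_eq_iff hPP (by simp)).1 hn
  rw [fromBlocks_one] at hyx
  refine ⟨k, r + k, x.submatrix id finSumFinEquiv.symm, y.submatrix finSumFinEquiv.symm id, ?_, ?_⟩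
  · rw [Matrix.submatrix_mul_equiv, hxy]; rfl
  · rw [← Matrix.submatrix_mul _ _ _ id _ Function.bijective_id, hyx, Matrix.submatrix_one_equiv]

end Crest.Agent.N218.D8

end
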