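import Crest.Agent.R204.BottS_671
import Crest.Agent.R204.BottSurj_313
import Crest.Agent.R204.BInd_837
import Crest.Agent.R204.Odd2_369

/-!
# Row 218, block D8 (helper54): `π₁₀(O) = 0` from complex Bott periodicity (frozen statements)
-/

set_option autoImplicit false

open Matrix
open scoped unitInterval

noncomputable section

namespace Crest.Agent.N218.D8

open R204 R204.Bt837

/-- a real structure on a commutative complex Banach algebra -/
structure Cj {R : Type} [NormedCommRing R] [NormedAlgebra ℂ R] (τ : R →+* R) : Prop where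
  cont : Continuous τ
  inv : ∀ a, τ (τ a) = a
  alg : ∀ c : ℂ, τ (algebraMap ℂ R c) = algebraMap ℂ R (starRingEnd ℂ c)

/-- joined through real invertible matrices -/
def RC {R ι : Type} [CommRing R] [TopologicalSpace R] [Fintype ι] [DecidableEq ι] (τ : R →+* R)
    (F G : Matrix ι ι R) : Prop := JoinedIn {M | IsUnit M ∧ M.map τ = M} F G

/-- real scalar matrices -/
def rs (R : Type) [CommRing R] [Algebra ℂ R] {ι κ : Type} (c : Matrix ι κ ℝ) : Matrix ι κ R :=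
  c.map fun t => algebraMap ℂ R (t : ℂ)

/-- pointwise conjugation -/
def cj (N : Type) : SPt N →+* SPt N where
  toFun p := ⟨(starRingEnd ℂ (SPe N p), star (Subtype.val p : ℂ × C(N → I, ℂ)).2),
    fun _ hx => congrArg (starRingEnd ℂ) (SPv_bd p hx)⟩
  map_one' := SPv_ext (map_one (starRingEnd ℂ)) fun _ => map_one (starRingEnd ℂ)
  map_mul' p q := SPv_ext (map_mul (starRingEnd ℂ) (SPe N p) (SPe N q))
    fun x => map_mul (starRingEnd ℂ) (SPv p x) (SPv q x)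
  map_zero' := SPv_ext (map_zero (starRingEnd ℂ)) fun _ => map_zero (starRingEnd ℂ)
  map_add' p q := SPv_ext (map_add (starRingEnd ℂ) (SPe N p) (SPe N q))
    fun x => map_add (starRingEnd ℂ) (SPv p x) (SPv q x)

theorem cj_v {N : Type} (p : SPt N) (x : N → I) : SPv (cj N p) x = starRingEnd ℂ (SPv p x) := rfl

theorem cj_e {N : Type} (p : SPt N) : SPe N (cj N p) = starRingEnd ℂ (SPe N p) := rfl

theorem cj_cj (N : Type) : Cj (cj N) where
  cont := Continuous.subtype_mk (Continuous.prodMk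
    (Complex.continuous_conj.comp (continuous_fst.comp continuous_subtype_val))
    (continuous_star.comp (continuous_snd.comp continuous_subtype_val))) _
  inv _ := SPv_ext (Complex.conj_conj _) fun _ => Complex.conj_conj _
  alg _ := SPv_ext rfl fun _ => rfl

/-- Wood: a real unit that is complex null-homotopic is stably `η [P]` -/
def WOOD : Prop := ∀ (R : Type) [NormedCommRing R] [NormedAlgebra ℂ R] [CompleteSpace R]
  (τ : R →+* R), Cj τ → ∀ (ι : Type) [Fintype ι] [DecidableEq ι] (u : Matrix ι ι R),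
  u.map τ = u → Bott671.Conn 1 u →
  ∃ (α : Type) (_ : Fintype α) (_ : DecidableEq α) (P : Matrix (ι ⊕ α) (ι ⊕ α) R)
    (c : Matrix (ι ⊕ α) (ι ⊕ α) ℝ), P.map τ = P ∧ P * P = P ∧
      RC τ (fromBlocks u 0 0 1) (rs R c * (1 - (P + P)))

/-- `η [P] = 0` if the complexification of `P` is trivial and `K₁ = 0` -/
def ETA : Prop := ∀ (R : Type) [NormedCommRing R] [NormedAlgebra ℂ R] [CompleteSpace R]
  (τ : R →+* R), Cj τ → Ex837.K1Triv R → ∀ (ι κ : Type) [Fintype ι] [DecidableEq ι] [Fintype κ]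
  [DecidableEq κ] (P : Matrix ι ι R) (x : Matrix ι κ R) (y : Matrix κ ι R),
  P.map τ = P → x * y = P → y * x = 1 →
  ∃ (α : Type) (_ : Fintype α) (_ : DecidableEq α) (c : Matrix (ι ⊕ α) (ι ⊕ α) ℝ),
    RC τ (fromBlocks (1 - (P + P)) 0 0 1) (rs R c)

/-- the complexification of a real bundle on `S¹⁰` is stably trivial -/
def CONJ : Prop := ∀ (ι : Type) [Fintype ι] [DecidableEq ι]
  (P : Matrix ι ι (SPt (Fin (2 * 5)))), P.map (cj _) = P → P * P = P →
  ∃ (k n : ℕ) (x : Matrix (ι ⊕ Fin k) (Fin n) (SPt (Fin (2 * 5))))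
    (y : Matrix (Fin n) (ι ⊕ Fin k) (SPt (Fin (2 * 5)))), x * y = fromBlocks P 0 0 1 ∧ y * x = 1

/-- real units over `S¹⁰` are stably joined to constants -/
def CORE : Prop := ∀ (ι : Type) [Fintype ι] [DecidableEq ι]
  (u : Matrix ι ι (SPt (Fin (2 * 5)))), u.map (cj _) = u → IsUnit u →
  ∃ (α : Type) (_ : Fintype α) (_ : DecidableEq α) (c : Matrix (ι ⊕ α) (ι ⊕ α) ℝ),
    RC (cj _) (fromBlocks u 0 0 1) (rs _ c)

/-- `π₁₀(O) = 0` on cubes -/
def PI : Prop := ∀ (ι : Type) [Fintype ι] [DecidableEq ι] (u : (Fin 10 → I) → Matrix ι ι ℝ),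
  Continuous u → (∀ x, IsUnit (u x)) → (∀ x ∈ Cube.boundary (Fin 10), u x = 1) →
  ∃ (α : Type) (_ : Fintype α) (_ : DecidableEq α)
    (H : I × (Fin 10 → I) → Matrix (ι ⊕ α) (ι ⊕ α) ℝ), Continuous H ∧ (∀ q, IsUnit (H q)) ∧
      (∀ x, H (0, x) = 1) ∧ (∀ x, H (1, x) = fromBlocks (u x) 0 0 1) ∧
      ∀ t, ∀ x ∈ Cube.boundary (Fin 10), H (t, x) = 1

/-- stabilisation of an idempotent by `1 ⊕ 0` -/
def st {ι : Type} (α β : Type) [DecidableEq α] (p : Matrix ι ι ℝ) :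
    Matrix (ι ⊕ (α ⊕ β)) (ι ⊕ (α ⊕ β)) ℝ := fromBlocks p 0 0 (fromBlocks 1 0 0 0)

/-- real bundles on `S¹¹` are stably trivial (cubes) -/
def TRC : Prop := ∀ (ι : Type) [Fintype ι] [DecidableEq ι]
  (p : I × (Fin 10 → I) → Matrix ι ι ℝ) (p₀ : Matrix ι ι ℝ), Continuous p →
  (∀ q, p q * p q = p q) → (∀ q, q.1 = 0 ∨ q.1 = 1 ∨ q.2 ∈ Cube.boundary (Fin 10) → p q = p₀) →
  ∃ (α β : Type) (_ : Fintype α) (_ : DecidableEq α) (_ : Fintype β) (_ : DecidableEq β)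
    (g : I × (Fin 10 → I) → Matrix (ι ⊕ (α ⊕ β)) (ι ⊕ (α ⊕ β)) ℝ), Continuous g ∧
      (∀ q, IsUnit (g q)) ∧ (∀ q, q.1 = 0 ∨ q.1 = 1 ∨ q.2 ∈ Cube.boundary (Fin 10) → g q = 1) ∧
      ∀ q, g q * st α β (p q) = st α β p₀ * g q

/-- **real bundles on `ℝ¹¹`, trivial at infinity, are stably trivial** -/
def TRIV : Prop := ∀ (E : Type) [NormedAddCommGroup E] [NormedSpace ℝ E],
  Module.finrank ℝ E = 11 → ∀ (ι : Type) [Fintype ι] [DecidableEq ι] (p : E → Matrix ι ι ℝ)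
  (p₀ : Matrix ι ι ℝ) (r : ℝ), Continuous p → (∀ x, p x * p x = p x) →
  (∀ x, r ≤ ‖x‖ → p x = p₀) →
  ∃ (k : ℕ) (r' : ℝ) (g : E → Matrix (ι ⊕ (Fin k ⊕ Fin k)) (ι ⊕ (Fin k ⊕ Fin k)) ℝ),
    Continuous g ∧ (∀ x, IsUnit (g x)) ∧ (∀ x, r' ≤ ‖x‖ → g x = 1) ∧
      ∀ x, g x * st (Fin k) (Fin k) (p x) = st (Fin k) (Fin k) p₀ * g x

end Crest.Agent.N218.D8

end
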