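import Crest.Agent.N218.D8.Rc

/-! # Row 218, block D8 (helper54): `η [P] = 0` for complex trivial `P`; the core statement -/

set_option autoImplicit false
set_option linter.unusedSectionVars false

open Matrix
open scoped unitInterval

noncomputable section

namespace Crest.Agent.N218.D8

open R204 R204.Bt837 Complex

section
variable {R ι κ : Type} [NormedCommRing R] [NormedAlgebra ℂ R] [CompleteSpace R] [Fintype ι]
  [DecidableEq ι] [Fintype κ] [DecidableEq κ] {τ : R →+* R}

theorem unit_refl {p : Matrix ι ι R} (h : p * p = p) : IsUnit (1 - (p + p)) :=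
  IsUnit.of_mul_eq_one (1 - (p + p)) (by
    simp only [mul_sub, sub_mul, mul_add, add_mul, h, mul_one, one_mul]; abel)

theorem map_refl {p : Matrix ι ι R} (h : p.map τ = p) : (1 - (p + p)).map τ = 1 - (p + p) := by
  rw [Matrix.map_sub _ (map_sub τ), Matrix.map_add _ (map_add τ), map_one', h]

/-- `η` respects real equivalence of idempotents -/
theorem rc_mvn (h : Cj τ) {a : Matrix κ ι R} {b : Matrix ι κ R} (ha : a.map τ = a)
    (hb : b.map τ = b) (e : a * (b * a) = a) (e' : b * a * b = b) :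
    RC τ (fromBlocks (1 - (b * a + b * a)) 0 0 1) (fromBlocks 1 0 0 (1 - (a * b + a * b))) := by
  let c : ℝ → R := fun t => rh R (Real.cos (Real.pi / 2 * t))
  let s : ℝ → R := fun t => rh R (Real.sin (Real.pi / 2 * t))
  have cr : Continuous (rh R) := (continuous_algebraMap ℂ R).comp continuous_ofReal
  have cc : Continuous c := cr.comp (by fun_prop)
  have cs : Continuous s := cr.comp (by fun_prop)
  have q : ∀ t, c t * c t + s t * s t = 1 := fun t => by
    simp only [c, s]
    rw [← map_mul, ← map_mul, ← map_add, ← sq, ← sq, Real.cos_sq_add_sin_sq, map_one]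
  let p : ℝ → Matrix (ι ⊕ κ) (ι ⊕ κ) R := fun t =>
    fromBlocks ((c t * c t) • (b * a)) ((c t * s t) • b) ((c t * s t) • a) ((s t * s t) • (a * b))
  have e1 : b * a * (b * a) = b * a := by rw [← Matrix.mul_assoc, e']
  have e2 : a * b * (a * b) = a * b := by rw [← Matrix.mul_assoc, Matrix.mul_assoc a, e]
  have e3 : b * (a * b) = b := by rw [← Matrix.mul_assoc, e']
  have e4 : a * b * a = a := by rw [Matrix.mul_assoc, e]
  have pp : ∀ t, p t * p t = p t := fun t => by
    simp only [p, fromBlocks_multiply, Matrix.smul_mul, Matrix.mul_smul, smul_smul, e, e', e1, e2,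
      e3, e4, ← add_smul]
    congr 2
    · linear_combination (c t * c t) * q t
    · linear_combination (c t * s t) * q t
    · linear_combination (c t * s t) * q t
    · linear_combination (s t * s t) * q t
  have sm : ∀ {m n : Type} (r : R) (M : Matrix m n R), (r • M).map τ = τ r • M.map τ :=
    fun r M => Matrix.ext fun _ _ => map_mul τ _ _
  have k := RC.of_real (τ := τ) (γ := fun t => 1 - (p t + p t)) (by
    have : Continuous p := Continuous.matrix_fromBlocks ((cc.mul cc).smul continuous_const)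
      ((cc.mul cs).smul continuous_const) ((cc.mul cs).smul continuous_const)
      ((cs.mul cs).smul continuous_const)
    exact continuous_const.sub (this.add this)) fun t _ => ⟨unit_refl (pp t), map_refl (by
      simp only [p, fromBlocks_map, sm, Matrix.map_mul, map_mul, ha, hb, c, s, h.rh])⟩
  simp only [p, c, s, mul_zero, mul_one, Real.cos_zero, Real.sin_zero, Real.cos_pi_div_two,
    Real.sin_pi_div_two, map_one, map_zero, one_smul, zero_smul, fromBlocks_add,
    add_zero] at k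
  rw [← fromBlocks_one, sub_eq_add_neg, sub_eq_add_neg, fromBlocks_neg, fromBlocks_neg,
    fromBlocks_add, fromBlocks_add] at k
  simpa only [neg_zero, add_zero, ← sub_eq_add_neg, sub_zero] using k

/-- complex coordinates -/
def Cm (R κ : Type) [CommRing R] [Algebra ℂ R] [DecidableEq κ] : Matrix (κ ⊕ κ) (κ ⊕ κ) R :=
  fromBlocks 1 (Complex.I • 1) 1 ((-Complex.I) • 1)

/-- real coordinates -/
def Cn (R κ : Type) [CommRing R] [Algebra ℂ R] [DecidableEq κ] : Matrix (κ ⊕ κ) (κ ⊕ κ) R :=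
  fromBlocks ((1 / 2 : ℂ) • 1) ((1 / 2 : ℂ) • 1) ((-Complex.I / 2) • 1) ((Complex.I / 2) • 1)

/-- the swap -/
def Sw (R κ : Type) [CommRing R] [DecidableEq κ] : Matrix (κ ⊕ κ) (κ ⊕ κ) R := fromBlocks 0 1 1 0

theorem Cm_Cn : Cm R κ * Cn R κ = 1 := by
  have a : (1 / 2 + Complex.I * (-Complex.I / 2) : ℂ) = 1 := by
    linear_combination (-1 / 2 : ℂ) * I_mul_I
  have b : (1 / 2 + Complex.I * (Complex.I / 2) : ℂ) = 0 := by
    linear_combination (1 / 2 : ℂ) * I_mul_I
  have c : (1 / 2 + -Complex.I * (-Complex.I / 2) : ℂ) = 0 := by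
    linear_combination (1 / 2 : ℂ) * I_mul_I
  have d : (1 / 2 + -Complex.I * (Complex.I / 2) : ℂ) = 1 := by
    linear_combination (-1 / 2 : ℂ) * I_mul_I
  simp only [Cm, Cn, fromBlocks_multiply, Matrix.smul_mul, Matrix.one_mul, smul_smul, ← add_smul,
    a, b, c, d, one_smul, zero_smul, fromBlocks_one]

theorem Cn_Cm : Cn R κ * Cm R κ = 1 := mul_eq_one_comm.1 Cm_Cn

theorem Sw_Sw : Sw R κ * Sw R κ = 1 := by simp [Sw, fromBlocks_multiply]

theorem Cm_map (h : Cj τ) : (Cm R κ).map τ = Sw R κ * Cm R κ := by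
  simp [Cm, Sw, fromBlocks_multiply, fromBlocks_map, h.map_smul, Matrix.map_neg]

theorem Cn_map (h : Cj τ) : (Cn R κ).map τ = Cn R κ * Sw R κ := by
  simp only [Cn, Sw, fromBlocks_multiply, fromBlocks_map, h.map_smul, map_one', Matrix.mul_zero,
    Matrix.mul_one, zero_add, add_zero, map_div₀, map_neg, conj_I, map_one, neg_neg, conj_ofNat]

theorem Cn_Sw : Cn R κ * (-Sw R κ) * Cm R κ = rs R (fromBlocks (-1) 0 0 1) := by
  have : -Sw R κ * Cm R κ = Cm R κ * fromBlocks (-1) 0 0 1 := by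
    simp [Cm, Sw, fromBlocks_multiply, fromBlocks_neg]
  rw [Matrix.mul_assoc, this, ← Matrix.mul_assoc, Cn_Cm, Matrix.one_mul, rs_fb, rs_one, rs_eq,
    Matrix.map_neg _ (map_neg _), map_one']

/-- realification -/
def rl (τ : R →+* R) (M : Matrix κ κ R) : Matrix (κ ⊕ κ) (κ ⊕ κ) R :=
  Cn R κ * fromBlocks M 0 0 (M.map τ) * Cm R κ

theorem rl_real (h : Cj τ) {M : Matrix κ κ R} (k : IsUnit M) :
    IsUnit (rl τ M) ∧ (rl τ M).map τ = rl τ M := by
  refine ⟨((IsUnit.of_mul_eq_one _ Cn_Cm).mul (Bott671.isUnit_fromBlocks_diag k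
    (k.map τ.mapMatrix))).mul (IsUnit.of_mul_eq_one _ Cm_Cn), ?_⟩
  have : Sw R κ * fromBlocks (M.map τ) 0 0 M * Sw R κ = fromBlocks M 0 0 (M.map τ) := by
    simp [Sw, fromBlocks_multiply]
  rw [rl, Matrix.map_mul, Matrix.map_mul, Cm_map h, Cn_map h, map_fb, h.map_map, ← this]
  simp only [Matrix.mul_assoc]

theorem rl_conn (h : Cj τ) {M : Matrix κ κ R} (k : Bott671.Conn 1 M) : RC τ 1 (rl τ M) := by
  obtain ⟨γ, u⟩ := k
  have := RC.of_path (τ := τ) (γ := fun t => rl τ (γ t))
    ((continuous_const.matrix_mul (γ.continuous.matrix_fromBlocks continuous_const continuous_const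
      (γ.continuous.matrix_map h.cont))).matrix_mul continuous_const) fun t => rl_real h (u t)
  rwa [γ.source, γ.target, rl, map_one', fromBlocks_one, Matrix.mul_one, Cn_Cm] at this

theorem eta0 (h : Cj τ) {P : Matrix ι ι R} {x : Matrix ι κ R} {y : Matrix κ ι R}
    (hP : P.map τ = P) (xy : x * y = P) (yx : y * x = 1) (k : Bott671.Conn 1 (y * x.map τ)) :
    RC τ (fromBlocks (1 - (P + P)) 0 0 (1 : Matrix (κ ⊕ κ) (κ ⊕ κ) R))
      (rs R (fromBlocks 1 0 0 (fromBlocks (-1) 0 0 1))) := by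
  have xy' : x.map τ * y.map τ = P := by rw [← Matrix.map_mul, xy, hP]
  have yx' : y.map τ * x.map τ = 1 := by rw [← Matrix.map_mul, yx, map_one']
  let a := Cn R κ * fromRows y (y.map τ)
  let b := (1 / 2 : ℂ) • (fromCols x (x.map τ) * Cm R κ)
  have ba : b * a = P := by
    simp only [a, b, Matrix.smul_mul]
    rw [Matrix.mul_assoc, ← Matrix.mul_assoc (Cm R κ), Cm_Cn, Matrix.one_mul,
      fromCols_mul_fromRows, xy, xy', ← two_smul ℂ, smul_smul]
    norm_num
  have yP : y * P = y := by rw [← xy, ← Matrix.mul_assoc, yx, Matrix.one_mul]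
  have yP' : y.map τ * P = y.map τ := by rw [← xy', ← Matrix.mul_assoc, yx', Matrix.one_mul]
  have Px : P * x = x := by rw [← xy, Matrix.mul_assoc, yx, Matrix.mul_one]
  have Px' : P * x.map τ = x.map τ := by rw [← xy', Matrix.mul_assoc, yx', Matrix.mul_one]
  have ha : a.map τ = a := by
    have : Sw R κ * fromRows (y.map τ) y = fromRows y (y.map τ) := by
      simp [Sw, fromBlocks_mul_fromRows]
    simp only [a]
    rw [Matrix.map_mul, Cn_map h, fromRows_map, h.map_map, Matrix.mul_assoc, this]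
  have hb : b.map τ = b := by
    have : fromCols (x.map τ) x * Sw R κ = fromCols x (x.map τ) := by
      simp [Sw, fromCols_mul_fromBlocks]
    simp only [b]
    rw [h.map_smul, Matrix.map_mul, Cm_map h, fromCols_map, h.map_map, ← Matrix.mul_assoc, this]
    simp [conj_ofNat]
  have r := rc_mvn h ha hb (by rw [ba]; simp only [a, Matrix.mul_assoc, fromRows_mul, yP, yP'])
    (by rw [ba]; simp only [b, Matrix.mul_smul, ← Matrix.mul_assoc, mul_fromCols, Px, Px'])
  have ab : 1 - (a * b + a * b) = rl τ (y * x.map τ) * rs R (fromBlocks (-1) 0 0 1) := by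
    have e : fromRows y (y.map τ) * fromCols x (x.map τ) =
        1 - fromBlocks (y * x.map τ) 0 0 ((y * x.map τ).map τ) * (-Sw R κ) := by
      rw [fromRows_mul_fromCols, yx, yx', Matrix.map_mul, h.map_map, Matrix.mul_neg, sub_neg_eq_add,
        ← fromBlocks_one, Sw, fromBlocks_multiply, fromBlocks_add]
      simp
    rw [← Cn_Sw, rl, ← two_smul ℂ]
    simp only [a, b, Matrix.mul_smul, smul_smul, Matrix.mul_assoc]
    rw [← Matrix.mul_assoc (Cm R κ), Cm_Cn, Matrix.one_mul, ← Matrix.mul_assoc (fromRows _ _), e,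
      Matrix.sub_mul, Matrix.mul_sub, Matrix.one_mul, Cn_Cm, Matrix.mul_assoc]
    norm_num
  rw [ba, ab] at r
  have u : IsUnit (fromBlocks (-1) 0 0 1 : Matrix (κ ⊕ κ) (κ ⊕ κ) ℝ) :=
    Bott671.isUnit_fromBlocks_diag isUnit_one.neg isUnit_one
  have := ((rl_conn h k).mul (h.rc u)).symm
  rw [Matrix.one_mul] at this
  rw [rs_fb, rs_one]
  exact r.trans (RC.one.blocks this)

theorem k1_conn (h : Ex837.K1Triv R) {u : Matrix ι ι R} (k : IsUnit u) :
    ∃ l : ℕ, Bott671.Conn 1 (fromBlocks u 0 0 (1 : Matrix (Fin l) (Fin l) R)) := by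
  obtain ⟨v, rfl⟩ := k
  let e := (Fintype.equivFin ι).symm
  obtain ⟨l, H, c, a, b, d⟩ := h _ (v.1.submatrix e e) (v.2.submatrix e e)
    (by rw [submatrix_mul_equiv, v.3, submatrix_one_equiv])
    (by rw [submatrix_mul_equiv, v.4, submatrix_one_equiv])
  have : Bott671.Conn (H 0) (H 1) := ⟨⟨⟨H, c⟩, rfl, rfl⟩, a⟩
  have := this.reindex (e.sumCongr (Equiv.refl _))
  rw [b, d, reindex_apply, submatrix_one_equiv] at this
  refine ⟨l, ?_⟩
  convert this using 1
  ext (i | i) (j | j) <;> simp [e]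
end

theorem eta : ETA := fun R _ _ _ τ h K ι κ _ _ _ _ P x y hP xy yx => by
  have xy' : x.map τ * y.map τ = P := by rw [← Matrix.map_mul, xy, hP]
  have u : y * x.map τ * (y.map τ * x) = 1 := by
    rw [Matrix.mul_assoc, ← Matrix.mul_assoc (x.map τ), xy', ← xy, Matrix.mul_assoc, yx,
      Matrix.mul_one, yx]
  obtain ⟨l, k⟩ := k1_conn K (IsUnit.of_mul_eq_one _ u)
  have r := eta0 h (P := fromBlocks P 0 0 (1 : Matrix (Fin l) (Fin l) R))
    (x := fromBlocks x 0 0 (1 : Matrix (Fin l) (Fin l) R))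
    (y := fromBlocks y 0 0 (1 : Matrix (Fin l) (Fin l) R)) (by rw [map_fb, hP, map_one'])
    (by simp [fromBlocks_multiply, xy]) (by simp [fromBlocks_multiply, yx])
    (by simpa [map_fb, map_one', fromBlocks_multiply] using k)
  have v : IsUnit (fromBlocks (fromBlocks 1 0 0 (-1)) 0 0 1 : Matrix ((ι ⊕ Fin l) ⊕
      ((κ ⊕ Fin l) ⊕ (κ ⊕ Fin l))) ((ι ⊕ Fin l) ⊕ ((κ ⊕ Fin l) ⊕ (κ ⊕ Fin l))) ℝ) :=
    Bott671.isUnit_fromBlocks_diag (Bott671.isUnit_fromBlocks_diag isUnit_one isUnit_one.neg)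
      isUnit_one
  have s := r.mul (h.rc v)
  rw [← rs_mul, rs_fb, rs_fb, rs_one, rs_one, rs_eq (-1), Matrix.map_neg _ (map_neg _), map_one',
    ← fromBlocks_one (l := ι), fromBlocks_add, sub_eq_add_neg, fromBlocks_neg, fromBlocks_add,
    fromBlocks_multiply, fromBlocks_multiply] at s
  simp only [add_zero, neg_zero, Matrix.mul_zero, Matrix.zero_mul, Matrix.mul_one, zero_add,
    neg_add_rev, add_neg_cancel_comm_assoc, Matrix.mul_neg, neg_neg] at s
  have t := s.assoc
  rw [fromBlocks_one] at t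
  exact ⟨_, inferInstance, inferInstance, _, by rw [sub_eq_add_neg, neg_add_rev]; exact t⟩

theorem core (hW : WOOD) (hC : CONJ) : CORE := fun ι _ _ u a b => by
  have h := cj_cj (Fin (2 * 5))
  have K := BottK369.k1Triv_SP 5
  obtain ⟨l, k⟩ := k1_conn K b
  obtain ⟨α, _, _, P, c, p, pp, r⟩ := hW _ _ h _ _ (by rw [map_fb, a, map_one']) k
  obtain ⟨m, n, x, y, xy, yx⟩ := hC _ P p pp
  obtain ⟨β, _, _, d, s⟩ := eta _ _ h K _ _ _ x y (by rw [map_fb, p, map_one']) xy yx
  have v : IsUnit (rs (SPt (Fin (2 * 5))) (fromBlocks (fromBlocks c 0 0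
      (-1 : Matrix (Fin m) (Fin m) ℝ)) 0 0 (1 : Matrix β β ℝ))) := by
    rw [rs_fb, rs_fb]
    exact Bott671.isUnit_fromBlocks_diag (Bott671.isUnit_fromBlocks_diag
      (isUnit_of_mul_isUnit_left r.right.1) (rs_unit isUnit_one.neg)) (rs_unit isUnit_one)
  have t := (RC.refl v (h.rs _)).mul s
  rw [← rs_mul, rs_fb, rs_fb, rs_one, rs_eq (-1), Matrix.map_neg _ (map_neg _), map_one',
    ← fromBlocks_one (m := Fin m), fromBlocks_add, sub_eq_add_neg, fromBlocks_neg, fromBlocks_add,
    fromBlocks_multiply, fromBlocks_multiply] at t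
  simp only [add_zero, neg_zero, Matrix.mul_zero, Matrix.zero_mul, Matrix.mul_one, zero_add,
    neg_add_rev, add_neg_cancel_comm_assoc, Matrix.mul_neg, neg_neg] at t
  rw [← neg_add_rev, ← sub_eq_add_neg] at t
  have z := ((((r.blocks RC.one).blocks RC.one).trans t).assoc.assoc).assoc
  simp only [fromBlocks_one] at z
  exact ⟨_, inferInstance, inferInstance, _, z⟩

end Crest.Agent.N218.D8

end
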