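import Crest.Agent.N218.D8.Rc

/-!
# Row 218, block D8 (helper25): `π₁₀(O) = 0` on cubes from `CORE`
-/

set_option autoImplicit false

open Matrix
open scoped unitInterval

noncomputable section

namespace Crest.Agent.N218.D8.Pi

open R204 R204.Bt837

variable {N ι : Type}

/-- evaluation -/
def ev (x : N → I) : SPt N →+* ℂ where
  toFun p := SPv p x
  map_one' := rfl
  map_mul' _ _ := rfl
  map_zero' := rfl
  map_add' _ _ := rfl

/-- a family of real matrices as a matrix over the sphere algebra -/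
def mkS (u : (N → I) → Matrix ι ι ℝ) (hu : Continuous u) (c : Matrix ι ι ℝ)
    (hb : ∀ x ∈ Cube.boundary N, u x = c) : Matrix ι ι (SPt N) := Matrix.of fun i j =>
  (⟨((c i j : ℂ), ⟨fun x => (u x i j : ℂ), Complex.continuous_ofReal.comp (hu.matrix_elem i j)⟩),
    fun x hx => congrArg (fun M : Matrix ι ι ℝ => (M i j : ℂ)) (hb x hx)⟩ : SP N)

theorem mkS_ev (u : (N → I) → Matrix ι ι ℝ) (hu : Continuous u) (c : Matrix ι ι ℝ)
    (hb : ∀ x ∈ Cube.boundary N, u x = c) (x : N → I) :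
    (mkS u hu c hb).map (ev x) = (u x).map Complex.ofRealHom := rfl

theorem mat_ext' {x₀ : N → I} (h₀ : x₀ ∈ Cube.boundary N) {M M' : Matrix ι ι (SPt N)}
    (h : ∀ x, M.map (ev x) = M'.map (ev x)) : M = M' := by
  ext i j
  have k : ∀ x, SPv (M i j) x = SPv (M' i j) x := fun x => congrFun (congrFun (h x) i) j
  exact SPv_ext (by rw [← SPv_bd _ h₀, ← SPv_bd _ h₀, k]) k

/-- the real part of the value -/
def re (x : N → I) (M : Matrix ι ι (SPt N)) : Matrix ι ι ℝ := Matrix.of fun i j => (SPv (M i j) x).re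

theorem re_map {M : Matrix ι ι (SPt N)} (h : M.map (cj N) = M) (x : N → I) :
    (re x M).map Complex.ofRealHom = M.map (ev x) := by
  ext i j
  have : starRingEnd ℂ (SPv (M i j) x) = SPv (M i j) x :=
    congrArg (fun p => SPv p x) (congrFun (congrFun h i) j)
  exact Complex.conj_eq_iff_re.1 this

theorem of_inj {A B : Matrix ι ι ℝ} (h : A.map Complex.ofRealHom = B.map Complex.ofRealHom) :
    A = B := Matrix.map_injective Complex.ofReal_injective h

variable [Fintype ι] [DecidableEq ι]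

theorem unit_of {A : Matrix ι ι ℝ} (h : IsUnit (A.map Complex.ofRealHom)) : IsUnit A := by
  rw [Matrix.isUnit_iff_isUnit_det] at h ⊢
  rw [← RingHom.mapMatrix_apply, ← RingHom.map_det] at h
  exact isUnit_iff_ne_zero.2 fun e => h.ne_zero (by rw [e, map_zero])

theorem cont_inv {X : Type} [TopologicalSpace X] {u : X → Matrix ι ι ℝ} (hu : Continuous u)
    (h : ∀ x, IsUnit (u x)) : Continuous fun x => (u x)⁻¹ := by
  simp only [Matrix.inv_def, Ring.inverse_eq_inv']
  exact (hu.matrix_det.inv₀ fun x => ((Matrix.isUnit_iff_isUnit_det _).1 (h x)).ne_zero).smul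
    hu.matrix_adjugate

theorem mul_inv' {A : Matrix ι ι ℝ} (h : IsUnit A) : A * A⁻¹ = 1 :=
  Matrix.mul_nonsing_inv _ ((Matrix.isUnit_iff_isUnit_det _).1 h)

theorem main {x₀ : N → I} (h₀ : x₀ ∈ Cube.boundary N)
    (h : ∀ u : Matrix ι ι (SPt N), u.map (cj _) = u → IsUnit u →
      ∃ (α : Type) (_ : Fintype α) (_ : DecidableEq α) (c : Matrix (ι ⊕ α) (ι ⊕ α) ℝ),
        RC (cj _) (fromBlocks u 0 0 1) (rs _ c))
    (u : (N → I) → Matrix ι ι ℝ) (hu : Continuous u) (h1 : ∀ x, IsUnit (u x))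
    (hb : ∀ x ∈ Cube.boundary N, u x = 1) :
    ∃ (α : Type) (_ : Fintype α) (_ : DecidableEq α)
      (H : I × (N → I) → Matrix (ι ⊕ α) (ι ⊕ α) ℝ), Continuous H ∧ (∀ q, IsUnit (H q)) ∧
        (∀ x, H (0, x) = 1) ∧ (∀ x, H (1, x) = fromBlocks (u x) 0 0 1) ∧
        ∀ t, ∀ x ∈ Cube.boundary N, H (t, x) = 1 := by
  have hU : IsUnit (mkS u hu 1 hb) := by
    refine (Matrix.isUnit_iff_isUnit_det _).2 (Matrix.isUnit_det_of_right_inverse
      (B := mkS (fun x => (u x)⁻¹) (cont_inv hu h1) 1 fun x hx => by rw [hb x hx, inv_one]) ?_)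
    refine mat_ext' h₀ fun x => ?_
    rw [Matrix.map_mul, mkS_ev, mkS_ev, ← Matrix.map_mul, mul_inv' (h1 x), map_one', map_one']
  obtain ⟨α, i1, i2, c, hc⟩ := h (mkS u hu 1 hb) (mat_ext' h₀ fun x =>
    Matrix.ext fun i j => Complex.conj_ofReal (u x i j)) hU
  obtain ⟨γ, cγ, hγ, γ0, γ1⟩ := hc.symm.path
  let G : I × (N → I) → Matrix (ι ⊕ α) (ι ⊕ α) ℝ := fun q => re q.2 (γ q.1)
  have cG : Continuous G := continuous_matrix fun i j => Complex.continuous_re.comp
    (SPv_continuous ((cγ.matrix_elem i j).comp continuous_fst) continuous_snd)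
  have uG : ∀ q, IsUnit (G q) := fun q =>
    unit_of (by rw [re_map (hγ _).2]; exact (hγ _).1.map (ev q.2).mapMatrix)
  have bG : ∀ t, ∀ x ∈ Cube.boundary N, G (t, x) = G (t, x₀) := fun t x hx =>
    Matrix.ext fun i j => congrArg Complex.re ((SPv_bd _ hx).trans (SPv_bd _ h₀).symm)
  have G1 : ∀ x, G (1, x) = fromBlocks (u x) 0 0 1 := fun x => of_inj (by
    rw [re_map (hγ _).2, γ1, map_fb, map_fb, mkS_ev, map_one', map_one'])
  have G0 : ∀ x, G (0, x) = c := fun x => of_inj (by rw [re_map (hγ _).2, γ0]; rfl)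
  have c0 : Continuous fun q : I × (N → I) => G (q.1, x₀) :=
    cG.comp (continuous_fst.prodMk continuous_const)
  refine ⟨α, i1, i2, fun q => G q * (G (q.1, x₀))⁻¹, cG.matrix_mul (cont_inv c0 fun q => uG _),
    fun q => (uG q).mul (Matrix.isUnit_nonsing_inv_iff.2 (uG _)), fun x => ?_, fun x => ?_,
    fun t x hx => ?_⟩
  · change G (0, x) * (G (0, x₀))⁻¹ = 1
    rw [G0 x, ← G0 x₀, mul_inv' (uG _)]
  · change G (1, x) * (G (1, x₀))⁻¹ = _
    rw [G1, G1, hb x₀ h₀, fromBlocks_one, inv_one, Matrix.mul_one]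
  · change G (t, x) * (G (t, x₀))⁻¹ = 1
    rw [bG t x hx, mul_inv' (uG _)]

end Crest.Agent.N218.D8.Pi

namespace Crest.Agent.N218.D8

/-- **PI** -/
theorem pi_of (h : CORE) : PI := fun ι _ _ =>
  Pi.main (N := Fin 10) (x₀ := fun _ => 0) ⟨0, .inl rfl⟩ (h ι)

end Crest.Agent.N218.D8

end
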