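import Crest.Agent.N218.D8.Rc

/-! # Row 218, block D8 (helper54): clutching: real bundles on `S¹¹` from `π₁₀(O) = 0` -/

set_option autoImplicit false
set_option linter.unusedSectionVars false

open Matrix
open scoped unitInterval

noncomputable section

namespace Crest.Agent.N218.D8

open R204

variable {ι κ : Type} [Fintype ι] [DecidableEq ι] [Fintype κ] [DecidableEq κ]

theorem split_idem {p : Matrix ι ι ℝ} (h : p * p = p) :
    ∃ (r : ℕ) (a : Matrix ι (Fin r) ℝ) (b : Matrix (Fin r) ι ℝ), a * b = p ∧ b * a = 1 := by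
  let e := (Fintype.equivFin ι).symm
  obtain ⟨r, a, b, ab, ba⟩ := H472.exists_MvN_one (p.submatrix e e)
    (by rw [submatrix_mul_equiv, h])
  refine ⟨r, a.submatrix e.symm (Equiv.refl _), b.submatrix (Equiv.refl _) e.symm, ?_, ?_⟩
  · rw [submatrix_mul_equiv, ab]; simp
  · rw [submatrix_mul_equiv, ba]; simp

theorem unit_conj {A : Matrix ι κ ℝ} {B : Matrix κ ι ℝ} (ab : A * B = 1) (ba : B * A = 1)
    {M : Matrix κ κ ℝ} (h : IsUnit M) : IsUnit (A * M * B) := by
  obtain ⟨v, rfl⟩ := h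
  refine IsUnit.of_mul_eq_one (A * v.2 * B) ?_
  simp only [Matrix.mul_assoc]
  rw [← Matrix.mul_assoc B, ba, Matrix.one_mul, ← Matrix.mul_assoc v.1, v.3, Matrix.one_mul, ab]

/-- transport along the first coordinate -/
theorem transport {X : Type} [TopologicalSpace X] [CompactSpace X] (p : I × X → Matrix ι ι ℝ)
    (c : Continuous p) (h : ∀ q, p q * p q = p q) :
    ∃ V W : I × X → Matrix ι ι ℝ, Continuous V ∧ Continuous W ∧ (∀ q, V q * W q = 1) ∧
      (∀ q, W q * V q = 1) ∧ (∀ x, W (0, x) = 1) ∧ (∀ q, p q = V q * p (0, q.2) * W q) ∧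
      ∀ x, (∀ t, p (t, x) = p (0, x)) → ∀ t, V (t, x) = 1 ∧ W (t, x) = 1 := by
  let e : I → Matrix ι ι C(X, ℝ) := fun t i j =>
    (⟨fun q => p q i j, c.matrix_elem i j⟩ : C(I × X, ℝ)).curry t
  let ρ : X → Matrix ι ι C(X, ℝ) →+* Matrix ι ι ℝ := fun x => (Bott671.evHom x).mapMatrix
  have ex : ∀ {M N : Matrix ι ι C(X, ℝ)}, (∀ x, ρ x M = ρ x N) → M = N := fun k =>
    Matrix.ext fun i j => ContinuousMap.ext fun x => congrFun (congrFun (k x) i) j
  have er : ∀ t x, ρ x (e t) = p (t, x) := fun _ _ => rfl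
  obtain ⟨g, g', cg, cg', a, b, -, g0, k, r⟩ := Banach313.exists_path_conj_matrix.{0} e
    (continuous_matrix fun i j => ContinuousMap.continuous _)
    fun t => ex fun x => by rw [map_mul, er, h]
  have cc : ∀ {f : I → Matrix ι ι C(X, ℝ)}, Continuous f →
      Continuous fun q : I × X => ρ q.2 (f q.1) := fun {f} k => continuous_matrix fun i j =>
    ((k.comp continuous_fst).matrix_elem i j).eval continuous_snd
  refine ⟨_, _, cc cg, cc cg', fun q => by rw [← map_mul, a, map_one],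
    fun q => by rw [← map_mul, b, map_one], fun x => by rw [g0, map_one],
    fun q => ?_, fun x s => r (ρ x) s⟩
  have := congrArg (ρ q.2) (k q.1)
  rwa [map_mul, map_mul, er, er] at this

theorem trc (h : PI) : TRC := fun ι _ _ p p₀ c pp bd => by
  obtain ⟨V, W, cV, cW, VW, WV, W0, k, r⟩ := transport p c pp
  have k0 : ∀ q, p q = V q * p₀ * W q := fun q => by rw [k, bd (0, q.2) (.inl rfl)]
  have r0 : ∀ x ∈ Cube.boundary (Fin 10), ∀ t, V (t, x) = 1 ∧ W (t, x) = 1 := fun x m =>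
    r x fun t => by rw [bd _ (.inr (.inr m)), bd _ (.inl rfl)]
  have k1 : ∀ x, V (1, x) * p₀ * W (1, x) = p₀ := fun x => by rw [← k0, bd _ (.inr (.inl rfl))]
  have p2 : p₀ * p₀ = p₀ := by have := pp (0, 0); rwa [bd _ (.inl rfl)] at this
  obtain ⟨n, a, b, ab, ba⟩ := split_idem p2
  obtain ⟨m, a', b', ab', ba'⟩ := split_idem (p := 1 - p₀) (by simp [sub_mul, mul_sub, p2])
  have key : ∀ {s : ℕ} {a : Matrix ι (Fin s) ℝ} {b : Matrix (Fin s) ι ℝ}, b * a = 1 →
      (∀ x, V (1, x) * (a * b) * W (1, x) = a * b) → ∃ (α : Type) (_ : Fintype α)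
      (_ : DecidableEq α) (H : I × (Fin 10 → I) → Matrix (Fin s ⊕ α) (Fin s ⊕ α) ℝ),
      Continuous H ∧ (∀ q, IsUnit (H q)) ∧ (∀ x, H (0, x) = 1) ∧
      (∀ x, H (1, x) = fromBlocks (b * V (1, x) * a) 0 0 1) ∧
      ∀ t, ∀ x ∈ Cube.boundary (Fin 10), H (t, x) = 1 := fun {s a b} e f =>
    h _ (fun x => b * V (1, x) * a) ((continuous_const.matrix_mul
      (cV.comp (Continuous.prodMk_right 1))).matrix_mul continuous_const)
      (fun x => IsUnit.of_mul_eq_one (b * W (1, x) * a) (by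
        calc _ = b * (V (1, x) * (a * b) * W (1, x)) * a := by simp only [Matrix.mul_assoc]
          _ = 1 := by rw [f, ← Matrix.mul_assoc, e, Matrix.one_mul, e]))
      fun x m => by rw [(r0 x m 1).1, Matrix.mul_one, e]
  obtain ⟨α, _, _, H, cH, uH, H0, H1, Hb⟩ := key ba fun x => by rw [ab, k1]
  obtain ⟨β, _, _, G, cG, uG, G0, G1, Gb⟩ := key ba' fun x => by
    rw [ab', Matrix.mul_sub, Matrix.sub_mul, k1, Matrix.mul_one, VW]
  let A : Matrix (ι ⊕ (α ⊕ β)) ((Fin n ⊕ α) ⊕ (Fin m ⊕ β)) ℝ :=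
    fromCols (fromBlocks a 0 0 (fromRows 1 0)) (fromBlocks a' 0 0 (fromRows 0 1))
  let B : Matrix ((Fin n ⊕ α) ⊕ (Fin m ⊕ β)) (ι ⊕ (α ⊕ β)) ℝ :=
    fromRows (fromBlocks b 0 0 (fromCols 1 0)) (fromBlocks b' 0 0 (fromCols 0 1))
  have AMB : ∀ (u : Matrix (Fin n) (Fin n) ℝ) (v : Matrix α α ℝ) (u' : Matrix (Fin m) (Fin m) ℝ)
      (v' : Matrix β β ℝ), A * fromBlocks (fromBlocks u 0 0 v) 0 0 (fromBlocks u' 0 0 v') * B =
        fromBlocks (a * u * b + a' * u' * b') 0 0 (fromBlocks v 0 0 v') := fun u v u' v' => by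
    simp [A, B, fromCols_mul_fromBlocks, fromCols_mul_fromRows, fromBlocks_multiply, fromRows_mul,
      fromBlocks_add]
    ext (i | i) (j | j) <;> simp
  have AB : A * B = 1 := by
    have := AMB 1 1 1 1
    simpa only [fromBlocks_one, Matrix.mul_one, ab, ab', add_sub_cancel] using this
  have z : b * a' = 0 := by
    calc _ = b * a * b * (a' * (b' * a')) := by rw [ba, ba', Matrix.one_mul, Matrix.mul_one]
      _ = b * (a * b * (a' * b')) * a' := by simp only [Matrix.mul_assoc]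
      _ = 0 := by rw [ab, ab', Matrix.mul_sub, p2]; simp
  have z' : b' * a = 0 := by
    calc _ = b' * a' * b' * (a * (b * a)) := by rw [ba, ba', Matrix.one_mul, Matrix.mul_one]
      _ = b' * (a' * b' * (a * b)) * a := by simp only [Matrix.mul_assoc]
      _ = 0 := by rw [ab, ab', Matrix.sub_mul, p2]; simp
  have BA : B * A = 1 := by
    simp [A, B, fromBlocks_multiply, fromCols_mul_fromRows, ba, ba', z, z']
  have q0 : st α β p₀ = A * fromBlocks (1 : Matrix (Fin n ⊕ α) (Fin n ⊕ α) ℝ) 0 0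
      (0 : Matrix (Fin m ⊕ β) (Fin m ⊕ β) ℝ) * B := by
    have := AMB 1 1 0 0
    rw [fromBlocks_one, fromBlocks_zero] at this
    rw [this]; simp [st, ab]
  refine ⟨α, β, inferInstance, inferInstance, inferInstance, inferInstance,
    fun q => A * fromBlocks (H q) 0 0 (G q) * B * fromBlocks (W q) 0 0 1,
    ((continuous_const.matrix_mul (cH.matrix_fromBlocks continuous_const continuous_const
      cG)).matrix_mul continuous_const).matrix_mul
      (cW.matrix_fromBlocks continuous_const continuous_const continuous_const),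
    fun q => (unit_conj AB BA (Bott671.isUnit_fromBlocks_diag (uH q) (uG q))).mul
      (Bott671.isUnit_fromBlocks_diag (IsUnit.of_mul_eq_one _ (WV q)) isUnit_one),
    fun ⟨t, x⟩ s => ?_, fun q => ?_⟩
  · rcases s with rfl | rfl | s
    · simp only [H0, G0, W0, fromBlocks_one, Matrix.mul_one, AB]
    · have cm : V (1, x) * p₀ = p₀ * V (1, x) := by
        conv_rhs => rw [← k1 x, Matrix.mul_assoc, WV, Matrix.mul_one]
      have : a * (b * V (1, x) * a) * b + a' * (b' * V (1, x) * a') * b' = V (1, x) := by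
        calc _ = a * b * (V (1, x) * (a * b)) + a' * b' * (V (1, x) * (a' * b')) := by
              simp only [Matrix.mul_assoc]
          _ = _ := by
            rw [ab, ab', Matrix.mul_sub, Matrix.mul_one, cm, Matrix.mul_sub, ← Matrix.mul_assoc,
              ← Matrix.mul_assoc, Matrix.sub_mul, Matrix.sub_mul, p2]
            simp
      simp only [H1, G1, AMB, this, fromBlocks_one, fromBlocks_multiply, VW, Matrix.mul_zero,
        Matrix.zero_mul, add_zero, zero_add, Matrix.mul_one]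
    · simp only [Hb t x s, Gb t x s, (r0 x s t).2, fromBlocks_one, Matrix.mul_one, AB]
  · have e1 : fromBlocks (W q) 0 0 1 * st α β (p q) = st α β p₀ * fromBlocks (W q) 0 0 1 := by
      have : W q * p q = p₀ * W q := by
        rw [k0, ← Matrix.mul_assoc, ← Matrix.mul_assoc, WV, Matrix.one_mul]
      simp [st, fromBlocks_multiply, this]
    have e2 : ∀ M N : Matrix ((Fin n ⊕ α) ⊕ (Fin m ⊕ β)) ((Fin n ⊕ α) ⊕ (Fin m ⊕ β)) ℝ,
        A * M * B * (A * N * B) = A * (M * N) * B := fun M N => by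
      simp only [Matrix.mul_assoc]
      rw [← Matrix.mul_assoc B, BA, Matrix.one_mul]
    rw [Matrix.mul_assoc, e1, ← Matrix.mul_assoc, ← Matrix.mul_assoc (st α β p₀), q0, e2, e2]
    simp [fromBlocks_multiply]

end Crest.Agent.N218.D8

end
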