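import Crest.Agent.N218.D8.Defs

/-!
# Row 218, block D8 (helper66): from cubes to `ℝ¹¹`
-/

set_option autoImplicit false

open Matrix Set
open scoped unitInterval

noncomputable section

namespace Crest.Agent.N218.D8

namespace Tv
variable {ι α β : Type}

/-- rearrangement of the indices -/
def sh (ι α β : Type) : ι ⊕ ((α ⊕ β) ⊕ (β ⊕ α)) ≃ (ι ⊕ (α ⊕ β)) ⊕ (β ⊕ α) where
  toFun := Sum.elim (fun i => .inl (.inl i)) (Sum.elim
    (Sum.elim (fun a => .inl (.inr (.inl a))) fun b => .inr (.inl b))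
    (Sum.elim (fun b => .inl (.inr (.inr b))) fun a => .inr (.inr a)))
  invFun := Sum.elim (Sum.elim .inl (Sum.elim (fun a => .inr (.inl (.inl a)))
    fun b => .inr (.inr (.inl b)))) (Sum.elim (fun b => .inr (.inl (.inr b)))
      fun a => .inr (.inr (.inr a)))
  left_inv := by rintro (_ | (_ | _) | (_ | _)) <;> rfl
  right_inv := by rintro ((_ | _ | _) | (_ | _)) <;> rfl

theorem st_sh [DecidableEq α] [DecidableEq β] (p : Matrix ι ι ℝ) : st (α ⊕ β) (β ⊕ α) p =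
    (fromBlocks (st α β p) 0 0 (fromBlocks 1 0 0 0)).submatrix (sh ι α β) (sh ι α β) := by
  ext (_ | (_ | _) | (_ | _)) (_ | (_ | _) | (_ | _)) <;> simp [st, sh, one_apply]

theorem st_eqv {γ δ : Type} [DecidableEq α] [DecidableEq γ] (a : γ ≃ α) (b : δ ≃ β)
    (p : Matrix ι ι ℝ) : st γ δ p = (st α β p).submatrix
      ((Equiv.refl ι).sumCongr (a.sumCongr b)) ((Equiv.refl ι).sumCongr (a.sumCongr b)) := by
  ext (_ | _ | _) (_ | _ | _) <;> simp [st, one_apply]

/-- clamp -/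
def cl (S t : ℝ) : I := projIcc 0 1 zero_le_one (t / (2 * S) + 1 / 2)

theorem cl_cont (S : ℝ) : Continuous (cl S) := continuous_projIcc.comp (by fun_prop)

theorem cl_in {S t : ℝ} (hS : 0 < S) (h : |t| ≤ S) : S * (2 * (cl S t : ℝ) - 1) = t := by
  obtain ⟨a, b⟩ := abs_le.1 h
  have e : t / (2 * S) + 1 / 2 = (t + S) / (2 * S) := by field_simp
  rw [cl, projIcc_of_mem _ ⟨by rw [e]; exact div_nonneg (by linarith) (by linarith),
    by rw [e, div_le_one (by linarith)]; linarith⟩]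
  field_simp
  ring

theorem cl_out {S t : ℝ} (hS : 0 < S) (h : S ≤ |t|) : cl S t = 0 ∨ cl S t = 1 := by
  have e : t / (2 * S) + 1 / 2 = (t + S) / (2 * S) := by field_simp
  rcases le_abs.1 h with a | a
  · exact .inr (projIcc_of_right_le _ (by rw [e, le_div_iff₀ (by linarith)]; linarith))
  · exact .inl (projIcc_of_le_left _ (by
      rw [e]; exact div_nonpos_of_nonpos_of_nonneg (by linarith) (by linarith)))

theorem abs_bd {S : ℝ} (hS : 0 < S) {t : I} (h : t = 0 ∨ t = 1) : S ≤ |S * (2 * (t : ℝ) - 1)| := by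
  rcases h with rfl | rfl <;> norm_num [abs_of_pos hS]
end Tv
open Tv

theorem triv (h : TRC) : TRIV := by
  intro E _ _ hE ι _ _ p p₀ r hp pp hr
  have : FiniteDimensional ℝ E := Module.finite_of_finrank_pos (by omega)
  obtain ⟨e⟩ : Nonempty (E ≃L[ℝ] ℝ × (Fin 10 → ℝ)) :=
    FiniteDimensional.nonempty_continuousLinearEquiv_of_finrank_eq (by simp [hE])
  obtain ⟨S, hS, s1⟩ : ∃ S : ℝ, 0 < S ∧ ∀ x, S ≤ ‖e x‖ → r ≤ ‖x‖ := by
    refine ⟨(‖(e : E →L[ℝ] ℝ × (Fin 10 → ℝ))‖ + 1) * (|r| + 1), by positivity, fun x a => ?_⟩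
    have := (e : E →L[ℝ] ℝ × (Fin 10 → ℝ)).le_opNorm x
    by_contra n
    have n0 := norm_nonneg (e : E →L[ℝ] ℝ × (Fin 10 → ℝ))
    simp only [ContinuousLinearEquiv.coe_coe] at this
    nlinarith [le_abs_self r, norm_nonneg x, abs_nonneg r,
      mul_le_mul_of_nonneg_left ((not_le.1 n).le.trans (le_abs_self r)) n0]
  obtain ⟨r', s2⟩ : ∃ r' : ℝ, ∀ x, r' ≤ ‖x‖ → S ≤ ‖e x‖ := by
    refine ⟨(‖(e.symm : ℝ × (Fin 10 → ℝ) →L[ℝ] E)‖ + 1) * S, fun x a => ?_⟩
    have := (e.symm : ℝ × (Fin 10 → ℝ) →L[ℝ] E).le_opNorm (e x)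
    by_contra n
    have n0 := norm_nonneg (e.symm : ℝ × (Fin 10 → ℝ) →L[ℝ] E)
    simp only [ContinuousLinearEquiv.coe_coe, e.symm_apply_apply] at this
    nlinarith [mul_le_mul_of_nonneg_left (not_le.1 n).le n0]
  let φ : I × (Fin 10 → I) → E := fun q =>
    e.symm (S * (2 * (q.1 : ℝ) - 1), fun i => S * (2 * (q.2 i : ℝ) - 1))
  let ψ : E → I × (Fin 10 → I) := fun x => (cl S (e x).1, fun i => cl S ((e x).2 i))
  have cφ : Continuous φ := e.symm.continuous.comp (by fun_prop)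
  have cψ : Continuous ψ := ((cl_cont S).comp e.continuous.fst).prodMk
    (continuous_pi fun i => (cl_cont S).comp ((continuous_apply i).comp e.continuous.snd))
  have b1 : ∀ q : I × (Fin 10 → I), q.1 = 0 ∨ q.1 = 1 ∨ q.2 ∈ Cube.boundary (Fin 10) →
      p (φ q) = p₀ := fun q a => hr _ (s1 _ (by
    rw [e.apply_symm_apply]
    rcases or_assoc.2 a with a | ⟨i, a⟩
    · exact (abs_bd hS a).trans 
        (norm_fst_le (S * (2 * (q.1 : ℝ) - 1), fun i => S * (2 * (q.2 i : ℝ) - 1)))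
    · exact (abs_bd hS a).trans ((norm_le_pi_norm (fun i => S * (2 * (q.2 i : ℝ) - 1)) i).trans
        (norm_snd_le (S * (2 * (q.1 : ℝ) - 1), _)))))
  have b2 : ∀ x, S ≤ ‖e x‖ → (ψ x).1 = 0 ∨ (ψ x).1 = 1 ∨ (ψ x).2 ∈ Cube.boundary (Fin 10) := by
    intro x a
    rcases le_max_iff.1 a with a | a
    · exact (cl_out hS a).imp_right .inl
    · by_contra n
      refine absurd a (not_le.2 ((pi_norm_lt_iff hS).2 fun i => not_le.1 fun b => ?_))
      exact n (.inr (.inr ⟨i, cl_out hS b⟩))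
  have b3 : ∀ x, p (φ (ψ x)) = p x := fun x => by
    rcases le_total S ‖e x‖ with a | a
    · rw [b1 _ (b2 x a), hr _ (s1 _ a)]
    · refine congrArg p (e.symm_apply_eq.2 (Prod.ext (cl_in hS ((norm_fst_le (e x)).trans a))
        (funext fun i => cl_in hS ((norm_le_pi_norm _ i).trans ((norm_snd_le (e x)).trans a)))))
  obtain ⟨α, β, _, _, _, _, g, gc, gu, g1, gp⟩ := h ι (p ∘ φ) p₀ (hp.comp cφ) (fun q => pp _) b1
  obtain ⟨a⟩ : Nonempty (Fin (Fintype.card α + Fintype.card β) ≃ α ⊕ β) :=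
    Fintype.card_eq.1 (by simp)
  obtain ⟨b⟩ : Nonempty (Fin (Fintype.card α + Fintype.card β) ≃ β ⊕ α) :=
    Fintype.card_eq.1 (by simp [add_comm])
  let c := ((Equiv.refl ι).sumCongr (a.sumCongr b)).trans (sh ι α β)
  have sc : ∀ m : Matrix ι ι ℝ, st (Fin _) (Fin _) m =
      (fromBlocks (st α β m) 0 0 (fromBlocks 1 0 0 0)).submatrix c c := fun m => by
    rw [st_eqv a b, st_sh]; rfl
  refine ⟨_, r', fun x => (fromBlocks (g (ψ x)) 0 0 1).submatrix c c,
    ((gc.comp cψ).matrix_fromBlocks continuous_const continuous_const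
      continuous_const).matrix_submatrix _ _, fun x => ?_, fun x a => ?_, fun x => ?_⟩
  · rw [isUnit_submatrix_equiv, isUnit_iff_isUnit_det, det_fromBlocks_zero₂₁, det_one, mul_one]
    exact (isUnit_iff_isUnit_det _).1 (gu _)
  · beta_reduce
    rw [g1 _ (b2 x (s2 x a)), fromBlocks_one, submatrix_one_equiv]
  · have := gp (ψ x)
    rw [Function.comp_apply, b3] at this
    rw [sc, sc, submatrix_mul_equiv, submatrix_mul_equiv, fromBlocks_multiply, fromBlocks_multiply]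
    simp [this]

end Crest.Agent.N218.D8

end
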