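import Crest.Agent.N218.D8.Wood2
import Crest.Agent.N218.D8.Defs

/-!
# `WOOD`
-/

set_option autoImplicit false

open Matrix

namespace Crest.Agent.N218.D8

open Crest.Agent.R204.Bott671

section

variable {R : Type} [NormedCommRing R] [NormedAlgebra ℂ R] {τ : R →+* R}

/-- the real form. -/
def Cj.fix (h : Cj τ) : Subalgebra ℝ R where
  carrier := {r | τ r = r}
  mul_mem' := fun {a b} ha hb => by
    change τ (a * b) = a * b
    rw [map_mul, show τ a = a from ha, show τ b = b from hb]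
  add_mem' := fun {a b} ha hb => by
    change τ (a + b) = a + b
    rw [map_add, show τ a = a from ha, show τ b = b from hb]
  algebraMap_mem' := fun t => by
    change τ (algebraMap ℂ R (t : ℂ)) = algebraMap ℂ R (t : ℂ)
    rw [h.alg, Complex.conj_ofReal]

/-- `R` is the complexification of its real form. -/
noncomputable def Cj.cx (h : Cj τ) : Cx h.fix R where
  τ := τ
  cont := h.cont
  inv := h.inv
  alg := h.alg
  φ := h.fix.val.toRingHom
  inj := Subtype.val_injective
  st := fun a => a.2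
  ex := fun r hr => ⟨⟨r, hr⟩, rfl⟩
  sm := fun _ => rfl

theorem Cj.rc_of_conn (h : Cj τ) {ι : Type} [Fintype ι] [DecidableEq ι]
    {F G : Matrix ι ι h.fix} (hc : Conn F G) : RC τ (F.map h.cx.φ) (G.map h.cx.φ) := by
  obtain ⟨γ, hγ⟩ := hc
  refine ⟨⟨⟨fun t => (γ t).map h.cx.φ, γ.continuous.matrix_map continuous_subtype_val⟩,
    by simp, by simp⟩, fun t => ⟨(hγ t).map h.cx.φ.mapMatrix, ?_⟩⟩
  ext i j
  exact (γ t i j).2

end

theorem wood : WOOD := by
  intro R _ _ _ τ h ι _ _ u hu hc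
  obtain ⟨v, rfl⟩ := h.cx.exM u fun i j => congrFun (congrFun hu i) j
  obtain ⟨α, i1, i2, P, hP, h1⟩ := h.cx.wood' v hc
  refine ⟨α, i1, i2, P.map h.cx.φ, 1, ?_, by rw [← Matrix.map_mul, hP], ?_⟩
  · ext i j
    exact (P i j).2
  · have e1 : rs R (1 : Matrix (ι ⊕ α) (ι ⊕ α) ℝ) = 1 := Matrix.map_one _ (by simp) (by simp)
    have h2 := h.rc_of_conn h1
    have e2 : (1 - (P + P)).map h.cx.φ = 1 - (P.map h.cx.φ + P.map h.cx.φ) := by
      change h.cx.φ.mapMatrix (1 - (P + P)) = _
      rw [map_sub, map_add, map_one]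
      rfl
    rw [e2, fromBlocks_map] at h2
    rw [e1, one_mul]
    simpa using h2

end Crest.Agent.N218.D8
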