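import Crest.Agent.N218.D8.Eta
import Crest.Agent.N218.D8.Wood3
import Crest.Agent.N218.D8.Conj
import Crest.Agent.N218.D8.Pi
import Crest.Agent.N218.D8.Trc
import Crest.Agent.N218.D8.Triv

/-! # Row 218, block D8 (helper54): `π₁₀(O) = 0`; real bundles on `S¹¹` are stably trivial -/

namespace Crest.Agent.N218.D8

theorem pi10 : PI := pi_of (core wood conj)

theorem trc' : TRC := trc pi10

theorem triv' : TRIV := triv trc'

end Crest.Agent.N218.D8
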