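import Crest.Agent.N218.D8.Defs

/-! # Row 218, block D8 (helper54): paths of real invertible matrices -/

set_option autoImplicit false
set_option linter.unusedSectionVars false

open Matrix
open scoped unitInterval

noncomputable section

namespace Crest.Agent.N218.D8

open R204

section
variable {R ι κ l : Type} [CommRing R] [TopologicalSpace R] [IsTopologicalRing R] [Fintype ι]
  [DecidableEq ι] [Fintype κ] [DecidableEq κ] [Fintype l] [DecidableEq l] {τ : R →+* R}
  {F G H F' G' : Matrix ι ι R}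

theorem RC.refl (h : IsUnit F) (k : F.map τ = F) : RC τ F F := JoinedIn.refl ⟨h, k⟩

theorem RC.symm (h : RC τ F G) : RC τ G F := JoinedIn.symm h

theorem RC.trans (h : RC τ F G) (k : RC τ G H) : RC τ F H := JoinedIn.trans h k

theorem RC.left (h : RC τ F G) : IsUnit F ∧ F.map τ = F := h.source_mem

theorem RC.right (h : RC τ F G) : IsUnit G ∧ G.map τ = G := h.target_mem

theorem RC.of_path {γ : I → Matrix ι ι R} (c : Continuous γ)
    (h : ∀ t, IsUnit (γ t) ∧ (γ t).map τ = γ t) : RC τ (γ 0) (γ 1) :=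
  ⟨⟨⟨γ, c⟩, rfl, rfl⟩, h⟩

theorem RC.path (h : RC τ F G) : ∃ γ : I → Matrix ι ι R, Continuous γ ∧
    (∀ t, IsUnit (γ t) ∧ (γ t).map τ = γ t) ∧ γ 0 = F ∧ γ 1 = G := by
  obtain ⟨γ, k⟩ := h
  exact ⟨γ, γ.continuous, k, γ.source, γ.target⟩

theorem RC.of_real {γ : ℝ → Matrix ι ι R} (c : Continuous γ)
    (h : ∀ t ∈ Set.Icc (0 : ℝ) 1, IsUnit (γ t) ∧ (γ t).map τ = γ t) : RC τ (γ 0) (γ 1) :=
  RC.of_path (γ := fun t => γ t) (c.comp continuous_subtype_val) fun t => h t t.2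

/-- image under a continuous map that keeps real units -/
theorem RC.comp {S : Type} [CommRing S] [TopologicalSpace S] [IsTopologicalRing S] {υ : S →+* S} (h : RC τ F G)
    {f : Matrix ι ι R → Matrix κ κ S} (c : Continuous f)
    (k : ∀ M, IsUnit M → M.map τ = M → IsUnit (f M) ∧ (f M).map υ = f M) : RC υ (f F) (f G) := by
  obtain ⟨γ, a, b, rfl, rfl⟩ := h.path
  exact RC.of_path (c.comp a) fun t => k _ (b t).1 (b t).2

theorem RC.mul (h : RC τ F G) (k : RC τ F' G') : RC τ (F * F') (G * G') := by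
  obtain ⟨γ, a, b, rfl, rfl⟩ := h.path
  obtain ⟨δ, c, d, rfl, rfl⟩ := k.path
  exact RC.of_path (γ := fun t => γ t * δ t) (a.matrix_mul c) fun t =>
    ⟨(b t).1.mul (d t).1, by rw [Matrix.map_mul, (b t).2, (d t).2]⟩

theorem map_fb {S : Type} [CommRing S] (f : R →+* S) {m n : Type} (a : Matrix ι m R)
    (b : Matrix κ n R) : (fromBlocks a 0 0 b).map f = fromBlocks (a.map f) 0 0 (b.map f) := by
  rw [fromBlocks_map, Matrix.map_zero _ (map_zero f), Matrix.map_zero _ (map_zero f)]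

theorem map_one' {S : Type} [CommRing S] (f : R →+* S) : (1 : Matrix ι ι R).map f = 1 :=
  Matrix.map_one _ (map_zero f) (map_one f)

theorem RC.one : RC τ (1 : Matrix ι ι R) 1 := RC.refl isUnit_one (map_one' τ)

theorem RC.blocks {K K' : Matrix κ κ R} (h : RC τ F G) (k : RC τ K K') :
    RC τ (fromBlocks F 0 0 K) (fromBlocks G 0 0 K') := by
  obtain ⟨γ, a, b, rfl, rfl⟩ := h.path
  obtain ⟨δ, c, d, rfl, rfl⟩ := k.path
  exact RC.of_path (γ := fun t => fromBlocks (γ t) 0 0 (δ t))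
    (a.matrix_fromBlocks continuous_const continuous_const c) fun t =>
    ⟨Bott671.isUnit_fromBlocks_diag (b t).1 (d t).1, by rw [map_fb, (b t).2, (d t).2]⟩

theorem RC.sub (e : κ ≃ ι) (h : RC τ F G) : RC τ (F.submatrix e e) (G.submatrix e e) :=
  h.comp (f := fun M => M.submatrix e e) (continuous_id.matrix_submatrix _ _) fun M a b =>
    ⟨(isUnit_submatrix_equiv e e).2 a, by rw [← submatrix_map, b]⟩

theorem fb_assoc {S : Type} [Zero S] (a : Matrix ι ι S) (b : Matrix κ κ S) (c : Matrix l l S) :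
    (fromBlocks (fromBlocks a 0 0 b) 0 0 c).submatrix (Equiv.sumAssoc ι κ l).symm
      (Equiv.sumAssoc ι κ l).symm = fromBlocks a 0 0 (fromBlocks b 0 0 c) := by
  ext (i | i | i) (j | j | j) <;> rfl

/-- reassociation -/
theorem RC.assoc {a : Matrix ι ι R} {b : Matrix κ κ R} {c : Matrix l l R}
    {M : Matrix ((ι ⊕ κ) ⊕ l) ((ι ⊕ κ) ⊕ l) R} (h : RC τ (fromBlocks (fromBlocks a 0 0 b) 0 0 c) M) :
    RC τ (fromBlocks a 0 0 (fromBlocks b 0 0 c))
      (M.submatrix (Equiv.sumAssoc ι κ l).symm (Equiv.sumAssoc ι κ l).symm) :=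
  fb_assoc a b c ▸ h.sub (Equiv.sumAssoc ι κ l).symm
end

section
variable {R ι κ l : Type} [NormedCommRing R] [NormedAlgebra ℂ R] [Fintype ι] [DecidableEq ι]
  [Fintype κ] [DecidableEq κ] [Fintype l] {τ : R →+* R}

/-- real scalars -/
def rh (R : Type) [CommRing R] [Algebra ℂ R] : ℝ →+* R := (algebraMap ℂ R).comp Complex.ofRealHom

theorem rs_eq (c : Matrix ι κ ℝ) : rs R c = c.map (rh R) := rfl

theorem rs_mul {m : Type} (a : Matrix ι l ℝ) (b : Matrix l m ℝ) :
    rs R (a * b) = rs R a * rs R b := Matrix.map_mul (f := rh R)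

theorem rs_one : rs R (1 : Matrix ι ι ℝ) = 1 := map_one' (rh R)

theorem rs_fb (a : Matrix ι ι ℝ) (b : Matrix κ κ ℝ) :
    rs R (fromBlocks a 0 0 b) = fromBlocks (rs R a) 0 0 (rs R b) := map_fb (rh R) a b

theorem rs_unit {c : Matrix ι ι ℝ} (h : IsUnit c) : IsUnit (rs R c) := h.map (rh R).mapMatrix

theorem Cj.rh (h : Cj τ) (t : ℝ) : τ (rh R t) = rh R t :=
  (h.alg t).trans (congrArg (algebraMap ℂ R) (Complex.conj_ofReal t))

theorem Cj.rs (h : Cj τ) {m n : Type} (c : Matrix m n ℝ) : (rs R c).map τ = rs R c :=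
  Matrix.ext fun i j => h.rh (c i j)

theorem Cj.rc (h : Cj τ) {c : Matrix ι ι ℝ} (k : IsUnit c) : RC τ (D8.rs R c) (D8.rs R c) :=
  RC.refl (rs_unit k) (h.rs c)

theorem Cj.smul (h : Cj τ) (c : ℂ) (a : R) : τ (c • a) = starRingEnd ℂ c • τ a := by
  rw [Algebra.smul_def, map_mul, h.alg, Algebra.smul_def]

theorem Cj.map_smul (h : Cj τ) {m n : Type} (c : ℂ) (M : Matrix m n R) :
    (c • M).map τ = starRingEnd ℂ c • M.map τ := Matrix.ext fun _ _ => h.smul c _

theorem Cj.map_map (h : Cj τ) {m n : Type} (M : Matrix m n R) : (M.map τ).map τ = M :=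
  Matrix.ext fun _ _ => h.inv _
end

end Crest.Agent.N218.D8

end
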