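import Crest.Agent.R204.BottS_671

/-!
# The Wood lemma: a real invertible matrix that is complex-homotopic to `1` is stably `1 - 2P`
-/

set_option autoImplicit false
set_option linter.unusedSectionVars false

open Filter Topology Polynomial Matrix
open scoped FourierTransform

namespace Crest.Agent.N218.D8

open Crest.Agent.R204.Bott671

/-- `R` is the complexification of `A`. -/
structure Cx (A R : Type*) [NormedCommRing A] [NormedAlgebra ℝ A] [NormedCommRing R]
    [NormedAlgebra ℂ R] where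
  τ : R →+* R
  cont : Continuous τ
  inv : ∀ a, τ (τ a) = a
  alg : ∀ z : ℂ, τ (algebraMap ℂ R z) = algebraMap ℂ R (starRingEnd ℂ z)
  φ : A →+* R
  inj : Function.Injective φ
  st : ∀ a, τ (φ a) = φ a
  ex : ∀ r, τ r = r → ∃ a, φ a = r
  sm : ∀ t : ℝ, φ (algebraMap ℝ A t) = algebraMap ℂ R t

section sand

variable {S : Type*} [CommRing S] {ι κ : Type} [Fintype ι] [DecidableEq ι] [Fintype κ]
  [DecidableEq κ]

theorem unit_sand {E' F' : Matrix ι κ S} {E F : Matrix κ ι S} {m : Matrix κ κ S}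
    (h1 : E' * E = 1) (h4 : F * F' = 1) (hm : IsUnit m) : IsUnit (E' * m * F) := by
  obtain ⟨w, rfl⟩ := hm
  have e : E' * (w : Matrix κ κ S) * F * (F' * (↑w⁻¹ : Matrix κ κ S) * E) = 1 := by
    calc E' * (w : Matrix κ κ S) * F * (F' * (↑w⁻¹ : Matrix κ κ S) * E)
        = E' * ((w : Matrix κ κ S) * (F * F') * (↑w⁻¹ : Matrix κ κ S)) * E := by
          simp only [Matrix.mul_assoc]
      _ = 1 := by rw [h4, Matrix.mul_one, Units.mul_inv, Matrix.mul_one, h1]
  exact ⟨⟨_, _, e, mul_eq_one_comm.1 e⟩, rfl⟩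

end sand

variable {A R : Type*} [NormedCommRing A] [NormedAlgebra ℝ A] [NormedCommRing R]
  [NormedAlgebra ℂ R] [CompleteSpace R]
  {ι : Type} [Fintype ι] [DecidableEq ι]

namespace Cx

variable (c : Cx A R)

theorem t_smul (z : ℂ) (r : R) : c.τ (z • r) = starRingEnd ℂ z • c.τ r := by
  rw [Algebra.smul_def, map_mul, c.alg, Algebra.smul_def]

/-- conjugation as a real continuous linear map. -/
noncomputable def stL : R →L[ℝ] R where
  toFun := c.τ
  map_add' := map_add c.τ
  map_smul' := fun t r => by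
    rw [RingHom.id_apply, ← Complex.coe_smul, ← Complex.coe_smul, c.t_smul]
    simp
  cont := c.cont

theorem t_circ (z : Circle) (r : R) : c.τ (z • r) = z⁻¹ • c.τ r := by
  rw [Circle.smul_def, Circle.smul_def, c.t_smul, Circle.coe_inv_eq_conj]

theorem t_coef (G : C(Circle, R)) (h : ∀ z, c.τ (G z) = G z⁻¹) (k : ℤ) :
    c.τ (coef G k) = coef G k := by
  have h1 : c.τ (coef G k) = c.stL (coef G k) := rfl
  rw [h1, coef, ← ContinuousLinearMap.intervalIntegral_comp_comm c.stL
    (intervalIntegrable_integrand G k)]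
  have h2 := intervalIntegral.integral_comp_sub_left (a := (0:ℝ)) (b := 1)
    (fun t : ℝ => (((𝐞 t) ^ (-k) : Circle)) • G (𝐞 t)) 1
  rw [sub_self, sub_zero] at h2
  rw [← h2]
  refine intervalIntegral.integral_congr fun t _ => ?_
  have h3 : (𝐞 (1 - t) : Circle) = (𝐞 t)⁻¹ := by
    have h4 : (𝐞 (1:ℝ) : Circle) = 1 := by
      ext
      rw [Real.fourierChar_apply', Circle.coe_exp]
      simp
    rw [sub_eq_add_neg, AddChar.map_add_eq_mul, h4, one_mul, AddChar.map_neg_eq_inv]
  change c.τ ((((𝐞 t) ^ (-k) : Circle)) • G (𝐞 t)) = _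
  simp only [h3]
  rw [c.t_circ, h, _root_.inv_zpow]

theorem unit {a : A} (h : IsUnit (c.φ a)) : IsUnit a := by
  obtain ⟨r, hr⟩ := h.exists_right_inv
  have h2 : c.φ a * c.τ r = 1 := by
    have := congrArg c.τ hr
    rwa [map_mul, c.st, map_one] at this
  have h3 : c.τ r = r := by
    calc c.τ r = (c.φ a * r) * c.τ r := by rw [hr, one_mul]
      _ = (c.φ a * c.τ r) * r := by ring
      _ = r := by rw [h2, one_mul]
  obtain ⟨b, rfl⟩ := c.ex r h3
  exact IsUnit.of_mul_eq_one b (c.inj (by rw [map_mul, hr, map_one]))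

theorem unitM {M : Matrix ι ι A} (h : IsUnit (M.map c.φ)) : IsUnit M := by
  rw [Matrix.isUnit_iff_isUnit_det] at h ⊢
  refine c.unit ?_
  rwa [RingHom.map_det]

theorem injM {κ l : Type} {M N : Matrix κ l A} (h : M.map c.φ = N.map c.φ) : M = N := by
  ext i j
  exact c.inj (congrFun (congrFun h i) j)

theorem map_smul {κ l : Type} (t : ℝ) (M : Matrix κ l A) :
    (t • M).map c.φ = (t : ℂ) • M.map c.φ := by
  ext i j
  simp [Algebra.smul_def, c.sm]

theorem exM {κ l : Type} (M : Matrix κ l R) (h : ∀ i j, c.τ (M i j) = M i j) :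
    ∃ N : Matrix κ l A, N.map c.φ = M := by
  choose N hN using fun i j => c.ex _ (h i j)
  exact ⟨N, by ext i j; exact hN i j⟩

/-- the Fourier coefficients of the inverse of a real pencil are real. -/
theorem pen_real (p : Pen R ι) (a b : Matrix ι ι A) (ha : p.a = a.map c.φ) (hb : p.b = b.map c.φ)
    (k : ℤ) : ∃ N : Matrix ι ι A, N.map c.φ = p.c k := by
  refine c.exM _ fun i j => c.t_coef (p.G i j) (fun z => ?_) k
  let σ : R →+* R := c.τ
  have e1 : ∀ z : Circle, evM z (pl p.a p.b) = p.a + algebraMap ℂ R (z : ℂ) • p.b := fun z => by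
    rw [pl, evM_add, zi_smul_cM]
    congr 1
  have e2 : (evM z (pl p.a p.b)).map σ = evM z⁻¹ (pl p.a p.b) := by
    rw [e1, e1, ha, hb]
    ext i j
    simp only [Matrix.map_apply, Matrix.add_apply, Matrix.smul_apply, smul_eq_mul, σ,
      map_add, map_mul, c.st, c.alg, Circle.coe_inv_eq_conj]
  have e3 : evM z⁻¹ (pl p.a p.b) * (evM z p.G).map σ = 1 := by
    rw [← e2, ← Matrix.map_mul, ← evM_mul, p.fG, evM_one]
    simp
  have e4 : evM z⁻¹ p.G * evM z⁻¹ (pl p.a p.b) = 1 := by rw [← evM_mul, p.Gf, evM_one]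
  have e5 : (evM z p.G).map σ = evM z⁻¹ p.G := by
    calc (evM z p.G).map σ = (evM z⁻¹ p.G * evM z⁻¹ (pl p.a p.b)) * (evM z p.G).map σ := by
          rw [e4, one_mul]
      _ = evM z⁻¹ p.G := by rw [mul_assoc, e3, mul_one]
  exact congrFun (congrFun e5 i) j

/-- Real pencils. -/
theorem pencil (a b : Matrix ι ι A) (h : IsUnit (pl (a.map c.φ) (b.map c.φ))) :
    ∃ P u : Matrix ι ι A, P * P = P ∧ Conn (a + b) u ∧ Conn (a - b) (u * (1 - (P + P))) := by
  let p := Pen.ofUnit _ _ h
  have ha : p.a = a.map c.φ := rfl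
  have hb : p.b = b.map c.φ := rfl
  obtain ⟨c1, h1⟩ := c.pen_real p a b ha hb (-1)
  obtain ⟨c0, h0⟩ := c.pen_real p a b ha hb 0
  let f : Matrix ι ι A →+* Matrix ι ι R := c.φ.mapMatrix
  have finj : ∀ {M N : Matrix ι ι A}, f M = f N → M = N := fun h => c.injM h
  have fa : f a = p.a := rfl
  have fb : f b = p.b := rfl
  have f1 : f c1 = p.c (-1) := h1
  have f0 : f c0 = p.c 0 := h0
  obtain ⟨P, hP⟩ : ∃ P, P = c1 * b := ⟨_, rfl⟩
  obtain ⟨M, hM⟩ : ∃ M, M = c1 * a := ⟨_, rfl⟩
  obtain ⟨N, hN⟩ : ∃ N, N = c0 * b := ⟨_, rfl⟩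
  obtain ⟨u, hu⟩ : ∃ u, u = b * P + a * (1 - P) := ⟨_, rfl⟩
  have fP : f P = p.P := by rw [hP, map_mul, f1, fb]; rfl
  have fM : f M = p.M := by rw [hM, map_mul, f1, fa]; rfl
  have fN : f N = p.N := by rw [hN, map_mul, f0, fb]; rfl
  have fu : f u = p.u := by rw [hu, map_add, map_mul, map_mul, map_sub, map_one, fP, fa, fb]; rfl
  have PP : P * P = P := finj (by rw [map_mul, fP, p.P_mul_P])
  have PM : P * M = M := finj (by rw [map_mul, fP, fM, p.P_mul_M])
  have PN : P * N = 0 := finj (by rw [map_mul, fP, fN, p.P_mul_N, map_zero])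
  have MN : M * N = 0 := finj (by rw [map_mul, fM, fN, p.M_mul_N, map_zero])
  have uu : IsUnit u := c.unitM (by change IsUnit (f u); rw [fu]; exact p.isUnit_u)
  have d1 : a + b = u * (P + (1 - P) + M + N) := finj (by
    have := p.decomp (S := ℤ) 1
    simp only [one_smul] at this
    simp only [map_add, map_mul, map_sub, map_one, fa, fb, fu, fP, fM, fN]
    exact this)
  have d2 : a - b = u * (-P + (1 - P) + M - N) := finj (by
    have := p.decomp (S := ℤ) (-1)
    simp only [neg_smul, one_smul, ← sub_eq_add_neg] at this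
    simp only [map_add, map_mul, map_sub, map_one, map_neg, fa, fb, fu, fP, fM, fN]
    exact this)
  have key : ∀ (Y : Matrix ι ι A), Tendsto (fun j : ℕ => (-f Y) ^ j) atTop (𝓝 0) →
      ∀ e : ℝ, |e| ≤ 1 → Conn 1 (1 + e • Y) := by
    intro Y hY e he
    have := Conn.of_real (F := fun t : ℝ => 1 + (t * e) • Y) (by fun_prop) (fun t ht => by
      refine c.unitM ?_
      change IsUnit (f (1 + (t * e) • Y))
      rw [map_add, map_one]
      change IsUnit (1 + ((t * e) • Y).map c.φ)
      rw [c.map_smul]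
      refine isUnit_one_add_smul hY ?_
      rw [Complex.norm_real, Real.norm_eq_abs, abs_mul, abs_of_nonneg ht.1]
      exact mul_le_one₀ ht.2 (abs_nonneg _) he)
    simpa using this
  have kM := key M (by rw [fM]; exact p.tendsto_M_pow)
  have kN := key N (by rw [fN]; exact p.tendsto_N_pow)
  have uP : IsUnit (1 - (P + P)) := by
    have e : (1 - (P + P)) * (1 - (P + P)) = 1 := by
      calc (1 - (P + P)) * (1 - (P + P)) = 1 - 4 • P + 4 • (P * P) := by noncomm_ring
        _ = 1 := by rw [PP]; abel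
    exact ⟨⟨_, _, e, e⟩, rfl⟩
  refine ⟨P, u, PP, ?_, ?_⟩
  · have := ((Conn.refl uu).mul (kM 1 (by simp))).mul (kN 1 (by simp))
    rw [mul_one, mul_one, one_smul, one_smul] at this
    have e : u * (1 + M) * (1 + N) = a + b := by
      rw [d1, mul_assoc]
      congr 1
      calc (1 + M) * (1 + N) = 1 + M + N + M * N := by noncomm_ring
        _ = _ := by rw [MN]; abel
    rw [← e]
    exact this.symm
  · have := ((Conn.refl (uu.mul uP)).mul (kM (-1) (by simp))).mul (kN (-1) (by simp))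
    rw [mul_one, mul_one, neg_smul, neg_smul, one_smul, one_smul] at this
    have e : u * (1 - (P + P)) * (1 + -M) * (1 + -N) = a - b := by
      rw [d2, mul_assoc, mul_assoc]
      congr 1
      calc (1 - (P + P)) * ((1 + -M) * (1 + -N))
          = 1 - (P + P) - M - N + M * N + 2 • (P * M) + 2 • (P * N) - 2 • (P * (M * N)) := by
            noncomm_ring
        _ = _ := by rw [MN, PM, PN, mul_zero]; abel
    rw [← e]
    exact this.symm

end Cx

end Crest.Agent.N218.D8
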