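import Crest.Agent.R204.BottS_671

/-!
# Row 218, block D8 (helper58): Wood's lemma

A real invertible matrix which is joined to `1` over the complexification is stably joined, over the
real algebra, to a reflection `1 - 2 P`.
-/

set_option autoImplicit false
set_option linter.unusedSectionVars false

open Filter Topology Polynomial Matrix ComplexConjugate
open scoped FourierTransform unitInterval

noncomputable section

namespace Crest.Agent.N218.Wd

open Crest.Agent.R204.Bott671

/-- a real form `B` of the complex Banach algebra `A` -/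
structure RS (B A : Type*) [NormedCommRing B] [NormedAlgebra ℝ B] [NormedCommRing A]
    [NormedAlgebra ℂ A] where
  j : B →+* A
  re : A →+ B
  τ : A →+* A
  c_re : Continuous re
  τ_j : ∀ b, τ (j b) = j b
  τ_τ : ∀ a, τ (τ a) = a
  τ_alg : ∀ c : ℂ, τ (algebraMap ℂ A c) = algebraMap ℂ A (conj c)
  c_τ : Continuous τ
  j_re : ∀ a, j (re a) = (2⁻¹ : ℂ) • (a + τ a)
  re_j : ∀ b, re (j b) = b
  j_alg : ∀ r : ℝ, j (algebraMap ℝ B r) = algebraMap ℂ A r

variable {B A : Type*} [NormedCommRing B] [NormedAlgebra ℝ B] [NormedCommRing A]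
  [NormedAlgebra ℂ A] [CompleteSpace A] (S : RS B A)
  {ι κ l : Type} [Fintype ι] [DecidableEq ι] [Fintype κ] [DecidableEq κ] [Fintype l] [DecidableEq l]

namespace RS

theorem j_inj : Function.Injective S.j := Function.LeftInverse.injective S.re_j

theorem j_re_of {a : A} (h : S.τ a = a) : S.j (S.re a) = a := by
  rw [S.j_re, h, ← two_smul ℂ a, smul_smul]; norm_num

theorem τ_smul (c : ℂ) (a : A) : S.τ (c • a) = conj c • S.τ a := by
  rw [Algebra.smul_def, map_mul, S.τ_alg, ← Algebra.smul_def]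

theorem isUnit_of {b : B} (h : IsUnit (S.j b)) : IsUnit b := by
  obtain ⟨w, hw⟩ := h.exists_right_inv
  have h1 : S.j b * S.τ w = 1 := by rw [← S.τ_j b, ← map_mul, hw, map_one]
  have h2 : S.τ w = w := by
    calc S.τ w = (S.j b * w) * S.τ w := by rw [hw, one_mul]
      _ = (S.j b * S.τ w) * w := by ring
      _ = w := by rw [h1, one_mul]
  refine IsUnit.of_mul_eq_one (S.re w) (S.j_inj ?_)
  rw [map_mul, S.j_re_of h2, hw, map_one]

theorem isUnit_mat {M : Matrix ι ι B} (h : IsUnit (M.map S.j)) : IsUnit M := by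
  rw [Matrix.isUnit_iff_isUnit_det] at h ⊢
  refine S.isUnit_of ?_
  rw [RingHom.map_det]
  exact h

theorem map_inj {M N : Matrix ι κ B} (h : M.map S.j = N.map S.j) : M = N := by
  ext i k
  exact S.j_inj (congrFun (congrFun h i) k)

theorem map_re {M : Matrix ι κ A} (h : M.map S.τ = M) : (M.map S.re).map S.j = M := by
  ext i k
  exact S.j_re_of (congrFun (congrFun h i) k)

theorem map_re_j (M : Matrix ι κ B) : (M.map S.j).map S.re = M := by
  ext i k
  exact S.re_j _

theorem map_j_τ (M : Matrix ι κ B) : (M.map S.j).map S.τ = M.map S.j := by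
  ext i k
  exact S.τ_j _

/-- a path of invariant units gives a path of real units -/
theorem conn_of {F : ℝ → Matrix ι ι A} (hc : Continuous F)
    (hu : ∀ t ∈ Set.Icc (0 : ℝ) 1, IsUnit (F t)) (hτ : ∀ t, (F t).map S.τ = F t)
    {x y : Matrix ι ι B} (h0 : F 0 = x.map S.j) (h1 : F 1 = y.map S.j) : Conn x y := by
  have h := Conn.of_real (F := fun t => (F t).map S.re) (hc.matrix_map S.c_re)
    fun t ht => S.isUnit_mat (by rw [S.map_re (hτ t)]; exact hu t ht)
  simpa only [h0, h1, S.map_re_j] using h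

/-- the involution of the loops -/
def sg : C(Circle, A) →+* C(Circle, A) where
  toFun f := ⟨fun z => S.τ (f z⁻¹), S.c_τ.comp (f.continuous.comp continuous_inv)⟩
  map_one' := by ext z; simp
  map_mul' f g := by ext z; simp
  map_zero' := by ext z; simp
  map_add' f g := by ext z; simp

theorem sg_apply (f : C(Circle, A)) (z : Circle) : S.sg f z = S.τ (f z⁻¹) := rfl

theorem sg_zc : S.sg zc = zc := by
  ext z
  rw [sg_apply, zc_apply, zc_apply, S.τ_alg, Circle.coe_inv_eq_conj, Complex.conj_conj]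

theorem sg_zi : S.sg zi = zi := by
  ext z
  rw [sg_apply, zi_apply, zi_apply, S.τ_alg, inv_inv, Circle.coe_inv_eq_conj]

theorem sg_C (a : A) : S.sg (ContinuousMap.C a) = ContinuousMap.C (S.τ a) := by
  ext z; rfl

theorem sg_loop (p : A[X]) : S.sg (loop p) = loop (p.map S.τ) := by
  have h : S.sg.comp loop = (loop : A[X] →+* C(Circle, A)).comp (Polynomial.mapRingHom S.τ) := by
    refine Polynomial.ringHom_ext (fun a => ?_) ?_
    · simp only [RingHom.comp_apply, Polynomial.coe_mapRingHom, Polynomial.map_C, loop_C, sg_C]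
    · simp only [RingHom.comp_apply, Polynomial.coe_mapRingHom, Polynomial.map_X, loop_X, sg_zc]
  exact congrArg (fun f => f p) h

/-- `τ` as a real operator -/
def τL : A →L[ℝ] A where
  toFun := S.τ
  map_add' := map_add S.τ
  map_smul' r a := by
    have : r • a = (r : ℂ) • a := (Complex.coe_smul r a).symm
    rw [this, S.τ_smul, Complex.conj_ofReal, Complex.coe_smul, RingHom.id_apply]
  cont := S.c_τ

theorem norm_sg (f : C(Circle, A)) : ‖S.sg f‖ ≤ ‖S.τL‖ * ‖f‖ :=
  (ContinuousMap.norm_le _ (by positivity)).2 fun _ => (S.τL.le_opNorm _).trans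
    (mul_le_mul_of_nonneg_left (f.norm_coe_le_norm _) (norm_nonneg _))

theorem coef_sg (f : C(Circle, A)) (k : ℤ) : coef (S.sg f) k = S.τ (coef f k) := by
  have h1 := ContinuousLinearMap.intervalIntegral_comp_comm S.τL
    (intervalIntegrable_integrand f k)
  have h2 := intervalIntegral.integral_comp_sub_left
    (fun t : ℝ => (((𝐞 t) ^ (-k) : Circle)) • (S.sg f) (𝐞 t)) (1 : ℝ) (a := 0) (b := 1)
  rw [sub_self, sub_zero] at h2
  change _ = S.τL (coef f k)
  rw [coef, coef, ← h1, ← h2]
  refine intervalIntegral.integral_congr fun t _ => ?_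
  have e1 : (𝐞 (1 - t) : Circle) = (𝐞 t)⁻¹ := by
    have : (𝐞 (1 : ℝ) : Circle) = 1 := by
      ext; simp [Real.fourierChar_apply]
    rw [sub_eq_add_neg, AddChar.map_add_eq_mul, this, one_mul, AddChar.map_neg_eq_inv]
  change _ = S.τ _
  simp only [e1, sg_apply, inv_inv, Circle.smul_def, S.τ_smul]
  congr 1
  rw [← Circle.coe_inv_eq_conj, _root_.inv_zpow]

/-- symmetrised polynomial -/
def sy (p : A[X]) : B[X] := ∑ k ∈ p.support, monomial k (S.re (p.coeff k))

theorem coeff_sy (p : A[X]) (k : ℕ) : (S.sy p).coeff k = S.re (p.coeff k) := by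
  rw [sy, finsetSum_coeff]
  simp only [coeff_monomial]
  rw [Finset.sum_ite_eq']
  split_ifs with h
  · rfl
  · rw [Polynomial.notMem_support_iff.1 h, map_zero]

theorem loop_sy (p : A[X]) :
    loop ((S.sy p).map S.j) = (2⁻¹ : ℂ) • (loop p + S.sg (loop p)) := by
  have h : (S.sy p).map S.j = Polynomial.C (algebraMap ℂ A 2⁻¹) * (p + p.map S.τ) := by
    ext k
    rw [coeff_map, coeff_sy, S.j_re, coeff_C_mul, coeff_add, coeff_map, Algebra.smul_def]
  rw [h, smul_C_mul, map_add, sg_loop]

/-- real Laurent approximation, with an even power -/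
theorem exists_real (F : Matrix ι ι C(Circle, A)) (hF : F.map S.sg = F) {ε : ℝ} (hε : 0 < ε) :
    ∃ (N : ℕ) (q : Matrix ι ι B[X]), ∀ i k,
      ‖F i k - zi ^ (2 * N) * loop ((q i k).map S.j)‖ < ε := by
  have hC : 0 ≤ ‖S.τL‖ := norm_nonneg _
  obtain ⟨N, p, hp⟩ := exists_laurentM F (ε := ε / (1 + ‖S.τL‖)) (by positivity)
  refine ⟨N, fun i k => X ^ N * S.sy (p i k), fun i k => ?_⟩
  have h0 : S.sg (F i k) = F i k := congrFun (congrFun hF i) k
  have h1 : (zi : C(Circle, A)) ^ (2 * N) * loop ((X ^ N * S.sy (p i k)).map S.j) =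
      zi ^ N * loop ((S.sy (p i k)).map S.j) := by
    rw [Polynomial.map_mul, Polynomial.map_pow, Polynomial.map_X, map_mul, map_pow, loop_X, two_mul,
      pow_add]
    calc _ = (zi ^ N * zc ^ N) * (zi ^ N * loop ((S.sy (p i k)).map S.j)) := by ring
      _ = _ := by rw [zi_pow_mul_zc_pow, one_mul]
  have h2 : F i k - zi ^ N * loop ((S.sy (p i k)).map S.j) = (2⁻¹ : ℂ) •
      ((F i k - zi ^ N * loop (p i k)) + S.sg (F i k - zi ^ N * loop (p i k))) := by
    rw [loop_sy, map_sub, map_mul, map_pow, sg_zi, h0, mul_smul_comm, mul_add]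
    module
  rw [h1, h2, norm_smul]
  have h3 := S.norm_sg (F i k - zi ^ N * loop (p i k))
  have h4 := norm_add_le (F i k - zi ^ N * loop (p i k)) (S.sg (F i k - zi ^ N * loop (p i k)))
  have h5 := hp i k
  rw [lt_div_iff₀ (by positivity)] at h5
  have h6 : ‖(2⁻¹ : ℂ)‖ = 2⁻¹ := by simp
  rw [h6]
  nlinarith

end RS

/-- evaluation of a matrix of polynomials at a real number -/
def ev (t : ℝ) (W : Matrix ι κ B[X]) : Matrix ι κ B :=
  W.map (Polynomial.evalRingHom (algebraMap ℝ B t))

theorem ev_mul (t : ℝ) (x : Matrix ι κ B[X]) (y : Matrix κ l B[X]) :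
    ev t (x * y) = ev t x * ev t y := Matrix.map_mul

theorem ev_one (t : ℝ) : ev t (1 : Matrix ι ι B[X]) = 1 :=
  Matrix.map_one _ (map_zero _) (map_one _)

theorem ev_blocks (t : ℝ) (q : Matrix ι ι B[X]) :
    ev t (fromBlocks q 0 0 (1 : Matrix κ κ B[X])) = fromBlocks (ev t q) 0 0 1 := by
  rw [ev, fromBlocks_map, Matrix.map_zero _ (map_zero _), Matrix.map_zero _ (map_zero _),
    Matrix.map_one _ (map_zero _) (map_one _)]
  rfl

theorem ev_gpl (t : ℝ) (a b : Matrix ι ι B) : ev t (gpl a b) = a + t • b := by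
  ext i k
  simp only [ev, gpl, Matrix.map_apply, Matrix.add_apply, Matrix.smul_apply, smul_eq_mul, eval_add,
    eval_mul, coe_evalRingHom, eval_C, eval_X]
  rw [Algebra.smul_def]

theorem continuous_ev (W : Matrix ι κ B[X]) : Continuous fun t : ℝ => ev t W := by
  refine continuous_pi fun i => continuous_pi fun k => ?_
  exact (W i k).continuous.comp (continuous_algebraMap ℝ B)

theorem conn_ev {W : Matrix ι ι B[X]} (hW : IsUnit W) (s : ℝ) : Conn (ev 0 W) (ev s W) := by
  have h := Conn.of_real (F := fun t => ev (t * s) W)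
    ((continuous_ev W).comp (continuous_id.mul continuous_const))
    fun t _ => hW.map (Polynomial.evalRingHom (algebraMap ℝ B (t * s))).mapMatrix
  simpa using h

/-- linearisation over the real algebra -/
theorem exists_lin (q : Matrix ι ι B[X]) : ∃ (α : Type) (_ : Fintype α) (_ : DecidableEq α)
    (a b : Matrix (ι ⊕ α) (ι ⊕ α) B) (W1 W2 : Matrix (ι ⊕ α) (ι ⊕ α) B[X]), IsUnit W1 ∧
      IsUnit W2 ∧ ev 0 W1 = 1 ∧ ev 0 W2 = 1 ∧ W1 * gpl a b * W2 = fromBlocks q 0 0 1 := by
  obtain ⟨κ, _, _, a, b, α, β, _, _, _, _, h⟩ := exists_pencil q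
  have hab : fromBlocks (gpl a b) 0 0 (1 : Matrix β β B[X])
      = gpl (fromBlocks a 0 0 1) (fromBlocks b 0 0 0) := by
    simp only [gpl, fromBlocks_map, fromBlocks_smul, fromBlocks_add]
    simp
  rw [hab] at h
  set a' := fromBlocks a 0 0 (1 : Matrix β β B)
  set b' := fromBlocks b 0 0 (0 : Matrix β β B)
  obtain ⟨E, F, E', F', h1, h2, h3, h4, h5⟩ := h
  have k1 : ev 0 E' * ev 0 E = 1 := by rw [← ev_mul, h1, ev_one]
  have k2 : ev 0 E * ev 0 E' = 1 := by rw [← ev_mul, h2, ev_one]
  have k3 : ev 0 F' * ev 0 F = 1 := by rw [← ev_mul, h3, ev_one]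
  have k4 : ev 0 F * ev 0 F' = 1 := by rw [← ev_mul, h4, ev_one]
  let CC : ∀ {l m : Type}, Matrix l m B → Matrix l m B[X] := fun x => x.map (C : B →+* B[X])
  have hCC : ∀ {l m n : Type} [Fintype m] (x : Matrix l m B) (y : Matrix m n B),
      CC (x * y) = CC x * CC y := by
    intro l m n _ x y
    exact Matrix.map_mul
  have hCC1 : ∀ {l : Type} [Fintype l] [DecidableEq l], CC (1 : Matrix l l B) = 1 := by
    intro l _ _
    simp [CC]
  have hev : ∀ {l m : Type} (x : Matrix l m B),
      (CC x).map (Polynomial.evalRingHom (algebraMap ℝ B 0)) = x := by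
    intro l m x
    ext i k
    simp [CC]
  have hppl : gpl (ev 0 E' * a' * ev 0 F) (ev 0 E' * b' * ev 0 F) =
      CC (ev 0 E') * gpl a' b' * CC (ev 0 F) := by
    simp only [gpl, Matrix.mul_add, Matrix.add_mul, Matrix.mul_smul, Matrix.smul_mul]
    rw [Matrix.map_mul, Matrix.map_mul, Matrix.map_mul, Matrix.map_mul]
  refine ⟨α, inferInstance, inferInstance, ev 0 E' * a' * ev 0 F, ev 0 E' * b' * ev 0 F,
    E' * CC (ev 0 E), CC (ev 0 F') * F, ?_, ?_, ?_, ?_, ?_⟩
  · have e : E' * CC (ev 0 E) * (CC (ev 0 E') * E) = 1 := by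
      calc _ = E' * (CC (ev 0 E) * CC (ev 0 E')) * E := by simp only [Matrix.mul_assoc]
        _ = 1 := by rw [← hCC, k2, hCC1, Matrix.mul_one, h1]
    exact ⟨⟨_, _, e, mul_eq_one_comm.1 e⟩, rfl⟩
  · have e : CC (ev 0 F') * F * (F' * CC (ev 0 F)) = 1 := by
      calc _ = CC (ev 0 F') * (F * F') * CC (ev 0 F) := by simp only [Matrix.mul_assoc]
        _ = 1 := by rw [h4, Matrix.mul_one, ← hCC, k3, hCC1]
    exact ⟨⟨_, _, e, mul_eq_one_comm.1 e⟩, rfl⟩
  · rw [ev_mul, ev, ev, hev]
    exact k1
  · rw [ev_mul, ev, hev]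
    exact k3
  · rw [hppl]
    calc _ = E' * (CC (ev 0 E) * CC (ev 0 E')) * gpl a' b' * (CC (ev 0 F) * CC (ev 0 F')) * F := by
          simp only [Matrix.mul_assoc]
      _ = E' * gpl a' b' * F := by
          rw [← hCC, ← hCC, k2, k4, hCC1, Matrix.mul_one, Matrix.mul_one]
      _ = E' * (gpl a' b' * F) := by rw [Matrix.mul_assoc]
      _ = (E' * E) * fromBlocks q 0 0 1 := by rw [← h5, Matrix.mul_assoc]
      _ = _ := by rw [h1, Matrix.one_mul]

namespace RS

/-- the complex loop of a real polynomial matrix -/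
def lp (W : Matrix ι κ B[X]) : Matrix ι κ C(Circle, A) :=
  W.map ((loop : A[X] →+* C(Circle, A)).comp (Polynomial.mapRingHom S.j))

theorem lp_gpl (a b : Matrix ι ι B) : S.lp (gpl a b) = pl (a.map S.j) (b.map S.j) := by
  ext i k : 2
  simp only [lp, gpl, pl, cM, Matrix.map_apply, Matrix.add_apply, Matrix.smul_apply, smul_eq_mul,
    map_add, map_mul, RingHom.comp_apply, Polynomial.coe_mapRingHom, Polynomial.map_C,
    Polynomial.map_X, loop_C, loop_X]

theorem sg_pl (a b : Matrix ι ι B) :
    (pl (a.map S.j) (b.map S.j)).map S.sg = pl (a.map S.j) (b.map S.j) := by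
  ext i k : 2
  simp [pl, cM, sg_zc, sg_C, S.τ_j]

theorem map_smul_j (t : ℝ) (M : Matrix ι κ B) : (t • M).map S.j = (t : ℂ) • M.map S.j := by
  ext i k
  simp [Algebra.smul_def, S.j_alg]

/-- real pencils -/
theorem pencil {a b : Matrix ι ι B} (h : IsUnit (pl (a.map S.j) (b.map S.j))) :
    ∃ P u : Matrix ι ι B, P * P = P ∧ Conn u (a + (1 : ℝ) • b) ∧
      Conn (u * (1 - (2 : ℝ) • P)) (a + (-1 : ℝ) • b) := by
  let p := Pen.ofUnit _ _ h
  have hG : p.G.map S.sg = p.G := by
    have h1 : pl p.a p.b * p.G.map S.sg = 1 := by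
      have := congrArg (fun M => M.map S.sg) p.fG
      simp only [Matrix.map_mul] at this
      rw [Matrix.map_one _ (map_zero _) (map_one _)] at this
      rw [← this]
      congr 1
      exact (S.sg_pl a b).symm
    calc p.G.map S.sg = (p.G * pl p.a p.b) * p.G.map S.sg := by rw [p.Gf, Matrix.one_mul]
      _ = p.G := by rw [Matrix.mul_assoc, h1, Matrix.mul_one]
  have hc : ∀ k, ((p.c k).map S.re).map S.j = p.c k := fun k => S.map_re (by
    ext i m
    change S.τ (coef (p.G i m) k) = coef (p.G i m) k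
    rw [← S.coef_sg]
    congr 1
    exact congrFun (congrFun hG i) m)
  set c1 := (p.c (-1)).map S.re
  set c0 := (p.c 0).map S.re
  have hP : (c1 * b).map S.j = p.P := by rw [Matrix.map_mul, hc]; rfl
  have hM : (c1 * a).map S.j = p.M := by rw [Matrix.map_mul, hc]; rfl
  have hN : (c0 * b).map S.j = p.N := by rw [Matrix.map_mul, hc]; rfl
  set P := c1 * b
  set M := c1 * a
  set N := c0 * b
  have h1 : (1 : Matrix ι ι B).map S.j = 1 := Matrix.map_one _ (map_zero _) (map_one _)
  have hadd : ∀ x y : Matrix ι ι B, (x + y).map S.j = x.map S.j + y.map S.j :=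
    fun x y => Matrix.map_add _ (map_add _) x y
  have hsub : ∀ x y : Matrix ι ι B, (x - y).map S.j = x.map S.j - y.map S.j :=
    fun x y => Matrix.map_sub _ (map_sub _) x y
  have hu : (b * P + a * (1 - P)).map S.j = p.u := by
    rw [hadd, Matrix.map_mul, hP, Matrix.map_mul, hsub, h1, hP]; rfl
  set u := b * P + a * (1 - P)
  have PP : P * P = P := S.map_inj (by rw [Matrix.map_mul, hP, p.P_mul_P])
  have PM : P * M = M := S.map_inj (by rw [Matrix.map_mul, hP, hM, p.P_mul_M])
  have h0 : (0 : Matrix ι ι B).map S.j = 0 := Matrix.map_zero _ (map_zero _)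
  have PN : P * N = 0 := S.map_inj (by rw [Matrix.map_mul, hP, hN, p.P_mul_N, h0])
  have MN : M * N = 0 := S.map_inj (by rw [Matrix.map_mul, hM, hN, p.M_mul_N, h0])
  have uu : IsUnit u := S.isUnit_mat (by rw [hu]; exact p.isUnit_u)
  have dec : ∀ z : ℝ, a + z • b = u * (z • P + (1 - P) + M + z • N) := fun z => S.map_inj (by
    rw [Matrix.map_mul, hu, hadd, hadd, hadd, hadd, hsub, map_smul_j, map_smul_j, map_smul_j, hP,
      hM, hN, h1]
    exact p.decomp (z : ℂ))
  have key : ∀ z : ℝ, z * z = 1 → Conn (u * (z • P + (1 - P))) (a + z • b) := by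
    intro z hz
    have hz1 : |z| = 1 := by
      have : |z| * |z| = 1 := by rw [← abs_mul, hz, abs_one]
      nlinarith [abs_nonneg z]
    have hL : IsUnit (z • P + (1 - P)) := by
      have e : (z • P + (1 - P)) * (z • P + (1 - P)) = 1 := by
        have q1 : P * (1 - P) = 0 := by rw [mul_sub, mul_one, PP, sub_self]
        have q2 : (1 - P) * P = 0 := by rw [sub_mul, one_mul, PP, sub_self]
        have q3 : (1 - P) * (1 - P) = 1 - P := by rw [sub_mul, one_mul, q1, sub_zero]
        rw [add_mul, mul_add, mul_add, smul_mul_smul_comm, hz, PP, one_smul, smul_mul_assoc, q1,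
          mul_smul_comm, q2, q3, smul_zero]
        abel
      exact ⟨⟨_, _, e, e⟩, rfl⟩
    have hw : ∀ t ∈ Set.Icc (0 : ℝ) 1, ‖((t * z : ℝ) : ℂ)‖ ≤ 1 := fun t ht => by
      rw [Complex.norm_real, Real.norm_eq_abs, abs_mul, hz1, mul_one, abs_of_nonneg ht.1]
      exact ht.2
    have h := Conn.of_real
      (F := fun t : ℝ => u * (z • P + (1 - P)) * (1 + (t * z) • M) * (1 + (t * z) • N))
      (by fun_prop) fun t ht => ((uu.mul hL).mul (S.isUnit_mat (by
        rw [hadd, h1, map_smul_j, hM]
        exact isUnit_one_add_smul p.tendsto_M_pow (hw t ht)))).mul (S.isUnit_mat (by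
        rw [hadd, h1, map_smul_j, hN]
        exact isUnit_one_add_smul p.tendsto_N_pow (hw t ht)))
    have e : u * (z • P + (1 - P)) * (1 + (1 * z) • M) * (1 + (1 * z) • N) = a + z • b := by
      rw [dec, Matrix.mul_assoc, Matrix.mul_assoc]
      congr 1
      have q1 : (z • P + (1 - P)) * (z • M) = M := by
        rw [add_mul, smul_mul_smul_comm, hz, one_smul, PM, mul_smul_comm, sub_mul, one_mul, PM,
          sub_self, smul_zero, add_zero]
      have q2 : (z • P + (1 - P) + M) * (z • N) = z • N := by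
        rw [mul_smul_comm, add_mul, add_mul, smul_mul_assoc, PN, MN, sub_mul, one_mul, PN]
        simp
      rw [one_mul, ← Matrix.mul_assoc, mul_add, mul_one, mul_add, mul_one, q1, q2]
    simpa only [zero_mul, zero_smul, add_zero, mul_one, e] using h
  refine ⟨P, u, PP, ?_, ?_⟩
  · simpa using key 1 (by norm_num)
  · have e : (-1 : ℝ) • P + (1 - P) = 1 - (2 : ℝ) • P := by module
    have := key (-1) (by norm_num)
    rwa [e] at this

/-- the symmetric loop of a path from `1` to a real matrix -/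
theorem exists_loop {g : Matrix ι ι B} (h : Conn 1 (g.map S.j)) :
    ∃ F : Matrix ι ι C(Circle, A), IsUnit F ∧ F.map S.sg = F ∧ evM 1 F = 1 ∧
      evM (-1) F = g.map S.j := by
  obtain ⟨γ, hγ⟩ := h
  let s : Circle → ℝ := fun z => (1 - (z : ℂ).re) / 2
  have cs : Continuous s := by fun_prop
  have s_inv : ∀ z : Circle, s z⁻¹ = s z := fun z => by
    simp only [s, Circle.coe_inv_eq_conj, Complex.conj_re]
  have im_inv : ∀ z : Circle, ((z⁻¹ : Circle) : ℂ).im = -(z : ℂ).im := fun z => by
    rw [Circle.coe_inv_eq_conj, Complex.conj_im]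
  have fix : ∀ z : Circle, (z : ℂ).im = 0 → (γ.extend (s z)).map S.τ = γ.extend (s z) := by
    intro z hz
    have h1 : (z : ℂ).re * (z : ℂ).re = 1 := by
      have := Circle.normSq_coe z
      rw [Complex.normSq_apply, hz] at this
      linarith
    rcases mul_self_eq_one_iff.1 h1 with h2 | h2
    · have : s z = 0 := by simp [s, h2]
      rw [this, Path.extend_zero]
      exact Matrix.map_one _ (map_zero _) (map_one _)
    · have : s z = 1 := by simp [s, h2]
      rw [this, Path.extend_one]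
      exact S.map_j_τ g
  let f : Circle → Matrix ι ι A := fun z =>
    if 0 ≤ (z : ℂ).im then γ.extend (s z) else (γ.extend (s z)).map S.τ
  have c1 : Continuous fun z => γ.extend (s z) := γ.continuous_extend.comp cs
  have cf : Continuous f := Continuous.if_le c1 (c1.matrix_map S.c_τ) continuous_const
    (by fun_prop) fun z hz => (fix z hz.symm).symm
  have ue : ∀ t : ℝ, IsUnit (γ.extend t) := fun t => hγ _
  let F : Matrix ι ι C(Circle, A) := fun i k => ⟨fun z => f z i k, cf.matrix_elem i k⟩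
  have hF : ∀ z, evM z F = f z := fun z => rfl
  refine ⟨F, (isUnit_iff_evM F).2 fun z => ?_, ?_, ?_, ?_⟩
  · rw [hF]
    simp only [f]
    split_ifs
    · exact ue _
    · exact (ue _).map S.τ.mapMatrix
  · have e : ∀ z, (f z⁻¹).map S.τ = f z := by
      intro z
      simp only [f, s_inv, im_inv]
      rcases lt_trichotomy (z : ℂ).im 0 with h | h | h
      · rw [if_pos (by linarith), if_neg (by linarith)]
      · rw [if_pos (by linarith), if_pos (by linarith), fix z h]
      · rw [if_neg (by linarith), if_pos (by linarith)]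
        ext i k
        exact S.τ_τ _
    ext i k z
    exact congrFun (congrFun (e z) i) k
  · rw [hF]
    simp [f, s]
  · rw [hF]
    simp [f, s]

/-- **Wood's lemma** -/
theorem wood {g : Matrix ι ι B} (h : Conn 1 (g.map S.j)) :
    ∃ (α : Type) (_ : Fintype α) (_ : DecidableEq α) (P : Matrix (ι ⊕ α) (ι ⊕ α) B),
      P * P = P ∧ Conn (fromBlocks g 0 0 1) (1 - (2 : ℝ) • P) := by
  obtain ⟨F, hF, hsg, h1, h2⟩ := S.exists_loop h
  obtain ⟨δ, hδ, hball⟩ := exists_ball hF
  obtain ⟨N, q, hq⟩ := S.exists_real F hsg hδ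
  set G : Matrix ι ι C(Circle, A) := (zi : C(Circle, A)) ^ (2 * N) • S.lp q with hG
  have hFG : ∀ i k, ‖F i k - G i k‖ < δ := hq
  have seg : ∀ (z : Circle) (r : ℝ), (z : ℂ) = r → r * r = 1 → ∀ x : Matrix ι ι B,
      evM z F = x.map S.j → Conn x (ev r q) := by
    intro z r hz hr x hx
    have hzi : ((z⁻¹ : Circle) : ℂ) = r := by
      rw [Circle.coe_inv_eq_conj, hz, Complex.conj_ofReal]
    have eG : evM z G = (ev r q).map S.j := by
      rw [hG, evM_smul, ContinuousMap.pow_apply, zi_apply, hzi, ← map_pow, pow_mul,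
        ← Complex.ofReal_pow, sq, hr, Complex.ofReal_one, one_pow, map_one, one_smul]
      ext i k
      change loop ((q i k).map S.j) z = S.j ((q i k).eval (algebraMap ℝ B r))
      rw [loop_apply, hz, ← S.j_alg, Polynomial.eval_map, Polynomial.eval₂_at_apply]
    have e : ∀ t : ℝ, evM z ((1 - (t : ℂ)) • F + (t : ℂ) • G) =
        ((1 - t) • x + t • ev r q).map S.j := by
      intro t
      rw [Matrix.map_add _ (map_add _), map_smul_j, map_smul_j, ← hx, ← eG]
      ext i k
      simp
    have := Conn.of_real (F := fun t : ℝ => (1 - t) • x + t • ev r q) (by fun_prop)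
      fun t ht => S.isUnit_mat (by
        rw [← e]
        exact (isUnit_iff_evM _).1 (isUnit_segment hball hFG ht) z)
    simpa using this
  have c1 : Conn 1 (ev 1 q) := seg 1 1 (by simp) (by norm_num) 1
    (by rw [h1, Matrix.map_one _ (map_zero _) (map_one _)])
  have c2 : Conn g (ev (-1) q) := seg (-1) (-1) (by simp) (by norm_num) g h2
  have uq : IsUnit (S.lp q) := by
    have h3 := hball G hFG
    rw [Matrix.isUnit_iff_isUnit_det] at h3 ⊢
    rw [hG, Matrix.det_smul] at h3
    exact isUnit_of_mul_isUnit_right h3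
  obtain ⟨α, i1, i2, a, b, W1, W2, u1, u2, z1, z2, hW⟩ := exists_lin q
  have upl : IsUnit (pl (a.map S.j) (b.map S.j)) := by
    have h3 : S.lp W1 * pl (a.map S.j) (b.map S.j) * S.lp W2 = fromBlocks (S.lp q) 0 0 1 := by
      rw [← S.lp_gpl, lp, lp, lp, ← Matrix.map_mul, ← Matrix.map_mul, hW, fromBlocks_map,
        Matrix.map_zero _ (map_zero _), Matrix.map_zero _ (map_zero _),
        Matrix.map_one _ (map_zero _) (map_one _)]
      rfl
    have h4 := isUnit_fromBlocks_diag uq (isUnit_one (M := Matrix α α C(Circle, A)))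
    rw [← h3, Matrix.isUnit_iff_isUnit_det, Matrix.det_mul, Matrix.det_mul] at h4
    rw [Matrix.isUnit_iff_isUnit_det]
    exact isUnit_of_mul_isUnit_right (isUnit_of_mul_isUnit_left h4)
  obtain ⟨P, u, PP, c3, c4⟩ := S.pencil upl
  have lin : ∀ r : ℝ, IsUnit (a + r • b) → Conn (a + r • b) (fromBlocks (ev r q) 0 0 1) := by
    intro r hr
    have := ((conn_ev u1 r).mul (Conn.refl hr)).mul (conn_ev u2 r)
    rwa [z1, z2, Matrix.one_mul, Matrix.mul_one, ← ev_gpl, ← ev_mul, ← ev_mul, hW, ev_blocks,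
      ev_gpl] at this
  have one : Conn (1 : Matrix α α B) 1 := Conn.refl isUnit_one
  have c5 : Conn u 1 := by
    have := (c3.trans (lin 1 c3.right)).trans (c1.blocks one).symm
    rwa [fromBlocks_one] at this
  have uP : IsUnit (1 - (2 : ℝ) • P) := by
    have h3 := c4.left
    rw [Matrix.isUnit_iff_isUnit_det] at h3 ⊢
    rw [Matrix.det_mul] at h3
    exact isUnit_of_mul_isUnit_right h3
  refine ⟨α, i1, i2, P, PP, ?_⟩
  have c6 := c5.mul (Conn.refl uP)
  rw [Matrix.one_mul] at c6
  exact (((c2.blocks one).trans (lin (-1) c4.right).symm).trans c4.symm).trans c6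

end RS

/-- real and complex functions on a compact space -/
def rsC (X : Type*) [TopologicalSpace X] [CompactSpace X] : RS C(X, ℝ) C(X, ℂ) where
  j := Complex.ofRealHom.compLeftContinuous X Complex.continuous_ofReal
  re :=
    { toFun := fun f => ⟨fun x => (f x).re, Complex.continuous_re.comp f.continuous⟩
      map_zero' := by ext; simp
      map_add' := fun f g => by ext; simp }
  τ := (starRingEnd ℂ).compLeftContinuous X Complex.continuous_conj
  c_re := ContinuousMap.continuous_postcomp (X := X) ⟨Complex.re, Complex.continuous_re⟩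
  τ_j b := by ext x; exact Complex.conj_ofReal _
  τ_τ a := by ext x; exact Complex.conj_conj _
  τ_alg c := by
    ext x
    change conj (algebraMap ℂ C(X, ℂ) c x) = _
    simp
  c_τ := ContinuousMap.continuous_postcomp (X := X) ⟨conj, Complex.continuous_conj⟩
  j_re a := by
    ext x
    change ((a x).re : ℂ) = 2⁻¹ * (a x + conj (a x))
    rw [Complex.add_conj]
    push_cast
    ring
  re_j b := by ext x; exact Complex.ofReal_re _
  j_alg r := by
    ext x
    change ((algebraMap ℝ C(X, ℝ) r x : ℝ) : ℂ) = _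
    simp

theorem rsC_j (X : Type*) [TopologicalSpace X] [CompactSpace X] (f : C(X, ℝ)) (x : X) :
    (rsC X).j f x = (f x : ℂ) := rfl

end Crest.Agent.N218.Wd

end
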