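import Crest.Agent.N218.D8.Wood

/-!
# The Wood lemma, second half
-/

set_option autoImplicit false
set_option linter.unusedSectionVars false

open Filter Topology Polynomial Matrix

namespace Crest.Agent.N218.D8

open Crest.Agent.R204.Bott671

variable {A R : Type*} [NormedCommRing A] [NormedAlgebra ℝ A] [NormedCommRing R]
  [NormedAlgebra ℂ R] [CompleteSpace R]
  {ι : Type} [Fintype ι] [DecidableEq ι]

/-- evaluation at a real scalar. -/
noncomputable def evR (A : Type*) [NormedCommRing A] [NormedAlgebra ℝ A] (s : ℝ) : A[X] →+* A :=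
  Polynomial.evalRingHom (algebraMap ℝ A s)

theorem evR_gpl {κ : Type} (a b : Matrix κ κ A) (s : ℝ) :
    (gpl a b).map (evR A s) = a + s • b := by
  ext i j
  simp only [gpl, evR, Matrix.map_apply, Matrix.add_apply, Matrix.smul_apply, smul_eq_mul,
    coe_evalRingHom, eval_add, eval_mul, eval_C, eval_X]
  rw [Algebra.smul_def]

theorem continuous_evR {κ l : Type} (E : Matrix κ l A[X]) :
    Continuous fun t : ℝ => E.map (evR A (1 - 2 * t)) :=
  continuous_matrix fun i j => (Polynomial.continuous (E i j)).comp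
    ((algebraMapCLM ℝ A).continuous.comp (by fun_prop))

namespace Cx

variable (c : Cx A R)

/-- the loop of a real polynomial. -/
noncomputable def lp : A[X] →+* C(Circle, R) := loop.comp (Polynomial.mapRingHom c.φ)

theorem lp_gpl {κ : Type} [Fintype κ] [DecidableEq κ] (a b : Matrix κ κ A) :
    (gpl a b).map c.lp = pl (a.map c.φ) (b.map c.φ) := by
  refine Matrix.ext fun i j => ?_
  have hx : c.lp X = zc := by simp [lp]
  have hc : ∀ r, c.lp (C r) = ContinuousMap.C (c.φ r) := fun r => by simp [lp]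
  simp only [gpl, pl, cM, Matrix.map_apply, Matrix.add_apply, Matrix.smul_apply, smul_eq_mul,
    map_add, map_mul, hx, hc]

theorem lp_apply (p : A[X]) (z : Circle) (s : ℝ) (h : (z : ℂ) = s) :
    c.lp p z = c.φ (evR A s p) := by
  change loop (p.map c.φ) z = c.φ (p.eval _)
  rw [loop_apply, h, ← c.sm, Polynomial.eval_map, Polynomial.eval₂_at_apply]

theorem poly (q : Matrix ι ι A[X]) (hq : IsUnit (q.map c.lp)) (hm : IsUnit (q.map (evR A (-1)))) :
    ∃ (α : Type) (_ : Fintype α) (_ : DecidableEq α) (P u : Matrix (ι ⊕ α) (ι ⊕ α) A),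
      P * P = P ∧ Conn (fromBlocks (q.map (evR A 1)) 0 0 1) u ∧
        Conn (fromBlocks (q.map (evR A (-1))) 0 0 1) (u * (1 - (P + P))) := by
  obtain ⟨κ, _, _, a, b, α, β, _, _, _, _, h⟩ := exists_pencil q
  have hab : fromBlocks (gpl a b) 0 0 (1 : Matrix β β A[X])
      = gpl (fromBlocks a 0 0 1) (fromBlocks b 0 0 0) := by
    simp only [gpl, fromBlocks_map, fromBlocks_smul, fromBlocks_add]
    simp
  rw [hab] at h
  set a' := fromBlocks a 0 0 (1 : Matrix β β A)
  set b' := fromBlocks b 0 0 (0 : Matrix β β A)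
  have blk : ∀ {T : Type _} [CommRing T] (f : A[X] →+* T),
      (fromBlocks q 0 0 (1 : Matrix α α A[X])).map f = fromBlocks (q.map f) 0 0 1 := by
    intro T _ f
    simp [fromBlocks_map]
  have blk' : (fromBlocks q 0 0 (1 : Matrix α α A[X])).map c.lp
      = fromBlocks (q.map c.lp) 0 0 1 := by
    simp [fromBlocks_map]
  have u1 : IsUnit (pl (a'.map c.φ) (b'.map c.φ)) := by
    rw [← c.lp_gpl]
    exact (h.map c.lp).isUnit (by rw [blk']; exact isUnit_fromBlocks_diag hq isUnit_one)
  have u2 : IsUnit (a' + (-1 : ℝ) • b') := by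
    rw [← evR_gpl]
    exact (h.map _).isUnit (by rw [blk]; exact isUnit_fromBlocks_diag hm isUnit_one)
  obtain ⟨E, F, E', F', h1, h2, h3, h4, h5⟩ := h
  have k0 : fromBlocks q 0 0 (1 : Matrix α α A[X]) = E' * gpl a' b' * F := by
    rw [Matrix.mul_assoc, ← h5, ← Matrix.mul_assoc, h1, Matrix.one_mul]
  have k1 : ∀ s, E'.map (evR A s) * E.map (evR A s) = 1 := fun s => by
    rw [← Matrix.map_mul, h1]; simp
  have k4 : ∀ s, F.map (evR A s) * F'.map (evR A s) = 1 := fun s => by
    rw [← Matrix.map_mul, h4]; simp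
  have k5 : ∀ s, fromBlocks (q.map (evR A s)) 0 0 (1 : Matrix α α A)
      = E'.map (evR A s) * (a' + s • b') * F.map (evR A s) := fun s => by
    rw [← blk, k0, Matrix.map_mul, Matrix.map_mul, evR_gpl]
  let a2 := E'.map (evR A 1) * a' * F.map (evR A 1)
  let b2 := E'.map (evR A 1) * b' * F.map (evR A 1)
  have u3 : IsUnit (pl (a2.map c.φ) (b2.map c.φ)) := by
    have e : pl (a2.map c.φ) (b2.map c.φ) = cM ((E'.map (evR A 1)).map c.φ)
        * pl (a'.map c.φ) (b'.map c.φ) * cM ((F.map (evR A 1)).map c.φ) := by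
      simp only [a2, b2, pl, Matrix.map_mul, cM_mul, Matrix.mul_add, Matrix.add_mul,
        Matrix.mul_smul, Matrix.smul_mul]
    rw [e]
    refine unit_sand (E := cM ((E.map (evR A 1)).map c.φ))
      (F' := cM ((F'.map (evR A 1)).map c.φ)) ?_ ?_ u1
    · rw [← cM_mul, ← Matrix.map_mul, k1]; simp [cM_one]
    · rw [← cM_mul, ← Matrix.map_mul, k4]; simp [cM_one]
  obtain ⟨P, u, hP, c1, c2⟩ := c.pencil a2 b2 u3
  refine ⟨α, inferInstance, inferInstance, P, u, hP, ?_, ?_⟩
  · have e : a2 + b2 = fromBlocks (q.map (evR A 1)) 0 0 1 := by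
      rw [k5, one_smul, Matrix.mul_add, Matrix.add_mul]
    rwa [e] at c1
  · refine Conn.trans (Conn.symm ?_) c2
    have := Conn.of_real (F := fun t : ℝ => E'.map (evR A (1 - 2 * t)) * (a' + (-1 : ℝ) • b')
      * F.map (evR A (1 - 2 * t)))
      (((continuous_evR E').matrix_mul continuous_const).matrix_mul (continuous_evR F))
      (fun t _ => unit_sand (k1 _) (k4 _) u2)
    simp only [mul_zero, sub_zero, mul_one] at this
    rw [show (1 : ℝ) - 2 = -1 by norm_num, ← k5] at this
    have e : a2 - b2 = E'.map (evR A 1) * (a' + (-1 : ℝ) • b') * F.map (evR A 1) := by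
      rw [neg_smul, one_smul, ← sub_eq_add_neg, Matrix.mul_sub, Matrix.sub_mul]
    rwa [e]

/-- symmetrisation of a Laurent approximation. -/
theorem symm (F : C(Circle, R)) (hF : ∀ z, c.τ (F z) = F z⁻¹) (N : ℕ) (p : R[X]) {δ : ℝ}
    (hδ : 0 < δ) (h : ‖F - zi ^ N * loop p‖ < δ / (1 + ‖c.stL‖)) :
    ∃ q : A[X], ‖F - zi ^ N * c.lp q‖ < δ := by
  have hl : C (algebraMap ℂ R (1 / 2)) * (p + p.map c.τ) ∈ Polynomial.lifts c.φ := by
    rw [Polynomial.lifts_iff_coeff_lifts]
    intro n
    refine c.ex _ ?_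
    simp only [coeff_C_mul, coeff_add, coeff_map, map_mul, map_add, c.inv, c.alg]
    rw [add_comm, map_div₀, map_one, map_ofNat]
  obtain ⟨q, hq⟩ := (Polynomial.mem_lifts _).1 hl
  refine ⟨q, ?_⟩
  have e0 : c.lp q = loop (C (algebraMap ℂ R (1 / 2)) * (p + p.map c.τ)) := by
    rw [← hq]; rfl
  have hK : 0 < 1 + ‖c.stL‖ := by positivity
  rw [ContinuousMap.norm_lt_iff _ (div_pos hδ hK)] at h
  rw [ContinuousMap.norm_lt_iff _ hδ]
  intro z
  have e1 : c.τ (loop p z⁻¹) = loop (p.map c.τ) z := by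
    rw [loop_apply, loop_apply, Polynomial.eval_map]
    have : algebraMap ℂ R (z : ℂ) = c.τ (algebraMap ℂ R ((z⁻¹ : Circle) : ℂ)) := by
      simp only [c.alg, Circle.coe_inv_eq_conj, Complex.conj_conj]
    rw [this, Polynomial.eval₂_at_apply]
  have e2 : c.τ ((zi : C(Circle, R)) z⁻¹) = zi z := by
    simp only [zi_apply, c.alg, inv_inv, Circle.coe_inv_eq_conj]
  have e3 : (F - zi ^ N * c.lp q : C(Circle, R)) z = (1 / 2 : ℂ) •
      ((F - zi ^ N * loop p : C(Circle, R)) z
      + c.τ ((F - zi ^ N * loop p : C(Circle, R)) z⁻¹)) := by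
    rw [e0, smul_C_mul, map_add]
    simp only [ContinuousMap.sub_apply, ContinuousMap.mul_apply, ContinuousMap.pow_apply,
      ContinuousMap.smul_apply, ContinuousMap.add_apply, map_sub, map_mul, map_pow, e1, e2,
      hF, inv_inv]
    rw [mul_smul_comm, mul_add]
    module
  rw [e3, norm_smul]
  have h1 := h z
  have h2 := h z⁻¹
  have h5 : ‖c.τ ((F - zi ^ N * loop p : C(Circle, R)) z⁻¹)‖ ≤ ‖c.stL‖ * (δ / (1 + ‖c.stL‖)) :=
    (c.stL.le_opNorm _).trans (mul_le_mul_of_nonneg_left h2.le (norm_nonneg _))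
  have h3 := norm_add_le ((F - zi ^ N * loop p : C(Circle, R)) z)
    (c.τ ((F - zi ^ N * loop p : C(Circle, R)) z⁻¹))
  have h4 : ‖(1 / 2 : ℂ)‖ = 1 / 2 := by simp
  have h6 : δ / (1 + ‖c.stL‖) + ‖c.stL‖ * (δ / (1 + ‖c.stL‖)) = δ := by field_simp
  rw [h4]
  linarith

/-- the doubled loop. -/
theorem dbl (u : Matrix ι ι A) (h : Conn 1 (u.map c.φ)) :
    ∃ F : Matrix ι ι C(Circle, R), IsUnit F ∧ (∀ i j z, c.τ (F i j z) = F i j z⁻¹) ∧
      evM 1 F = 1 ∧ evM (-1) F = u.map c.φ := by
  obtain ⟨γ, hγ⟩ := h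
  let g : Circle → Matrix ι ι R := fun z => γ.extend ((1 - (z : ℂ).re) / 2)
  have gc : Continuous g := γ.continuous_extend.comp (by fun_prop)
  have gu : ∀ z, IsUnit (g z) := fun z => by
    have : g z ∈ Set.range γ := by rw [← γ.extend_range]; exact ⟨_, rfl⟩
    obtain ⟨t, ht⟩ := this
    rw [← ht]; exact hγ t
  have gr : ∀ z : Circle, (z : ℂ).im = 0 → ∀ i j, c.τ (g z i j) = g z i j := fun z hz i j => by
    have h1 : (z : ℂ).re * (z : ℂ).re = 1 := by
      have := Circle.normSq_coe z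
      rwa [Complex.normSq_apply, hz, mul_zero, add_zero] at this
    rcases mul_self_eq_one_iff.1 h1 with h2 | h2
    · have : g z = 1 := by simp [g, h2]
      rw [this, Matrix.one_apply]
      split_ifs <;> simp
    · have : g z = u.map c.φ := by simp [g, h2]
      rw [this]; exact c.st _
  have gi : ∀ z : Circle, g z⁻¹ = g z := fun z => by
    simp only [g, Circle.coe_inv_eq_conj, Complex.conj_re]
  have ce : ∀ i j, Continuous fun z => g z i j := fun i j => gc.matrix_elem i j
  refine ⟨Matrix.of fun i j => ⟨fun z => if 0 ≤ (z : ℂ).im then g z i j else c.τ (g z i j),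
    (ce i j).if_le (c.cont.comp (ce i j)) continuous_const (by fun_prop)
      (fun z hz => (gr z hz.symm i j).symm)⟩, ?_, ?_, ?_, ?_⟩
  · rw [isUnit_iff_evM]
    intro z
    by_cases hz : 0 ≤ (z : ℂ).im
    · convert gu z using 1
      ext i j
      simp [hz]
    · convert (gu z).map c.τ.mapMatrix using 1
      ext i j
      simp [hz]
  · intro i j z
    simp only [Matrix.of_apply, ContinuousMap.coe_mk, gi, Circle.coe_inv_eq_conj, Complex.conj_im, Left.nonneg_neg_iff]
    rcases lt_trichotomy (z : ℂ).im 0 with h | h | h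
    · rw [if_neg (not_le.2 h), if_pos h.le, c.inv]
    · rw [if_pos h.ge, if_pos h.le, gr z h]
    · rw [if_pos h.le, if_neg (not_le.2 h)]
  · ext i j
    simp [g]
  · ext i j
    simp [g]

/-- **WOOD.** -/
theorem wood' (u : Matrix ι ι A) (h : Conn 1 (u.map c.φ)) :
    ∃ (α : Type) (_ : Fintype α) (_ : DecidableEq α) (P : Matrix (ι ⊕ α) (ι ⊕ α) A),
      P * P = P ∧ Conn (fromBlocks u 0 0 1) (1 - (P + P)) := by
  obtain ⟨F, hF, hs, h1, h2⟩ := c.dbl u h
  obtain ⟨δ, hδ, hball⟩ := exists_ball hF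
  obtain ⟨N, p, hp⟩ := exists_laurentM F (ε := δ / (1 + ‖c.stL‖)) (by positivity)
  choose q hq using fun i j => c.symm (F i j) (hs i j) N (p i j) hδ (hp i j)
  let L : Matrix ι ι C(Circle, R) := Matrix.of fun i j => zi ^ N * c.lp (q i j)
  let q2 : Matrix ι ι A[X] := Matrix.of fun i j => X ^ N * q i j
  have hL : IsUnit L := hball L hq
  have e1 : q2.map c.lp = ((zc : C(Circle, R)) ^ N * zc ^ N) • L := by
    refine Matrix.ext fun i j => ?_
    have hx : c.lp X = zc := by simp [lp]
    simp only [q2, L, Matrix.map_apply, map_mul, map_pow, hx, Matrix.smul_apply, smul_eq_mul,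
      Matrix.of_apply]
    calc (zc : C(Circle, R)) ^ N * c.lp (q i j)
        = zc ^ N * (zi ^ N * zc ^ N) * c.lp (q i j) := by
          rw [zi_pow_mul_zc_pow, mul_one]
      _ = _ := by ring
  have u2 : IsUnit (q2.map c.lp) := by
    rw [e1, Matrix.isUnit_iff_isUnit_det, Matrix.det_smul]
    have hz : IsUnit (zc : C(Circle, R)) := IsUnit.of_mul_eq_one _ zc_mul_zi
    exact (((hz.pow _).mul (hz.pow _)).pow _).mul ((Matrix.isUnit_iff_isUnit_det _).1 hL)
  have key : ∀ (z : Circle) (s : ℝ) (w : Matrix ι ι A), (z : ℂ) = s → z⁻¹ = z →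
      evM z F = w.map c.φ → Conn w (q2.map (evR A s)) := by
    intro z s w hz hi hw
    have e : evM z L = (q2.map (evR A s)).map c.φ := by
      ext i j
      simp only [L, q2, evM_apply, ContinuousMap.mul_apply, ContinuousMap.pow_apply, zi_apply, hi,
        Matrix.map_apply, map_mul, map_pow, c.lp_apply _ z s hz, hz, Matrix.of_apply]
      simp [evR, c.sm]
    have := Conn.of_real (F := fun t : ℝ => (1 - t) • w + t • q2.map (evR A s)) (by fun_prop)
      (fun t ht => by
        refine c.unitM ?_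
        have h3 := (isUnit_iff_evM _).1 (isUnit_segment (v := L) hball hq ht) z
        convert h3 using 1
        rw [Matrix.map_add _ (map_add c.φ), c.map_smul, c.map_smul, ← hw, ← e]
        ext i j
        simp)
    simpa using this
  have k1 := key 1 1 1 (by simp) (by simp) (by rw [h1]; simp)
  have k2 := key (-1) (-1) u (by simp) (by simp) h2
  obtain ⟨α, i1, i2, P, v, hP, c1, c2⟩ := c.poly q2 u2 k2.right
  refine ⟨α, i1, i2, P, hP, ?_⟩
  have one : Conn (1 : Matrix α α A) 1 := Conn.refl isUnit_one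
  have c3 : Conn v 1 := by
    have := ((k1.blocks one).trans c1).symm
    rwa [fromBlocks_one] at this
  have uP : IsUnit (1 - (P + P)) := by
    have e : (1 - (P + P)) * (1 - (P + P)) = 1 := by
      calc (1 - (P + P)) * (1 - (P + P)) = 1 - 4 • P + 4 • (P * P) := by noncomm_ring
        _ = 1 := by rw [hP]; abel
    exact ⟨⟨_, _, e, e⟩, rfl⟩
  have c4 := c3.mul (Conn.refl uP)
  rw [one_mul] at c4
  exact ((k2.blocks one).trans c2).trans c4

end Cx

end Crest.Agent.N218.D8
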